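import Vale.Agent.P154.Ferro4.Majorant
import Vale.Agent.P154.Ferro4.XData

/-!
P154, four states: kernel certificates of the pair inequalities of intervals 5, 6, 7.
Large trees are checked subtree by subtree.
-/

namespace Vale.Agent.P154.Ferro4.Maj

open PolyCheck

/-- Multipliers of interval 5. -/
def mus5 : List (Fin 3 × ℕ) := []

/-- A subtree of interval 5. -/
def tree5 : ACut :=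
  .cut 0 (.cut 1 (.cut 0 (.leaf 2) (.cut 1 (.leaf 0) (.cut 0 (.leaf 0) (.cut 1 (.leaf 0) (.cut 0 (.cut 1 (.cut 0 (.leaf 0) (.cut 1 (.leaf 0) (.cut 0 (.leaf 0) (.cut 1 (.leaf 0) (.cut 0 (.leaf 0) (.cut 1 (.leaf 0) (.cut 0 (.leaf 0) (.leaf 0)))))))) (.cut 0 (.leaf 0) (.cut 1 (.cut 0 (.leaf 0) (.leaf 0)) (.leaf 0)))) (.cut 1 (.cut 0 (.cut 1 (.leaf 0) (.cut 0 (.cut 1 (.leaf 0) (.leaf 0)) (.leaf 0))) (.leaf 0)) (.leaf 0))))))) (.cut 0 (.leaf 0) (.cut 1 (.cut 0 (.cut 1 (.leaf 0) (.leaf 0)) (.cut 1 (.cut 0 (.leaf 0) (.leaf 0)) (.cut 0 (.cut 1 (.cut 0 (.cut 1 (.cut 0 (.leaf 0) (.cut 1 (.leaf 0) (.cut 0 (.leaf 0) (.cut 1 (.leaf 0) (.leaf 0))))) (.leaf 0)) (.cut 1 (.cut 0 (.cut 1 (.leaf 0) (.cut 0 (.cut 1 (.leaf 0) (.leaf 0)) (.cut 1 (.leaf 0) (.leaf 0)))) (.leaf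 0)) (.cut 0 (.leaf 0) (.cut 1 (.cut 0 (.leaf 0) (.cut 1 (.leaf 0) (.leaf 0))) (.leaf 0))))) (.leaf 0)) (.cut 1 (.cut 0 (.cut 1 (.leaf 0) (.cut 0 (.cut 1 (.cut 0 (.cut 1 (.leaf 0) (.leaf 0)) (.leaf 0)) (.leaf 0)) (.leaf 0))) (.leaf 0)) (.leaf 0))))) (.leaf 0)))) (.cut 1 (.cut 0 (.cut 1 (.leaf 0) (.cut 0 (.cut 1 (.leaf 0) (.cut 0 (.leaf 0) (.cut 1 (.leaf 0) (.leaf 0)))) (.cut 1 (.leaf 0) (.cut 0 (.cut 1 (.cut 0 (.cut 1 (.cut 0 (.leaf 0) (.cut 1 (.leaf 0) (.cut 0 (.leaf 0) (.leaf 0)))) (.cut 0 (.leaf 0) (.cut 1 (.cut 0 (.leaf 0) (.cut 1 (.leaf 0) (.leaf 0))) (.leaf 0)))) (.cut 1 (.leaf 0) (.cut 0 (.cut 1 (.leaf 0) (.cut 0 (.cut 1 (.leaf 0) (.leaf 0)) (.leaf 0))) (.leaf 0)))) (.cut 0 (.leaf 0) (.cut 1 (.cut 0 (.cut 1 (.cut 0 (.leaf 0) (.leaf 0)) (.leaf 0))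 (.leaf 0)) (.leaf 0)))) (.leaf 0))))) (.leaf 0)) (.cut 0 (.cut 1 (.cut 0 (.cut 1 (.cut 0 (.cut 1 (.cut 0 (.leaf 0) (.cut 1 (.leaf 0) (.cut 0 (.cut 1 (.leaf 0) (.leaf 0)) (.cut 1 (.leaf 0) (.cut 0 (.cut 1 (.cut 0 (.leaf 0) (.cut 1 (.leaf 0) (.leaf 0))) (.leaf 0)) (.cut 1 (.leaf 0) (.leaf 0))))))) (.cut 0 (.leaf 0) (.leaf 0))) (.cut 1 (.cut 0 (.cut 1 (.leaf 0) (.leaf 0)) (.leaf 0)) (.leaf 0))) (.leaf 0)) (.leaf 0)) (.leaf 0)) (.leaf 0)))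

theorem check5 : checkAlt 2 (mulAlts (xKnum 5) 16000000 30000 900 1800 mus5) tree5 pairBox = true := by
  decide +kernel

/-- Multipliers of interval 6. -/
def mus6 : List (Fin 3 × ℕ) := [(1, 1), (1, 2)]

/-- A subtree of interval 6. -/
def tree6 : ACut :=
  .cut 0 (.cut 1 (.cut 0 (.leaf 5) (.cut 1 (.leaf 0) (.cut 0 (.cut 1 (.cut 0 (.leaf 4) (.cut 1 (.leaf 0) (.cut 0 (.cut 1 (.leaf 0) (.leaf 0)) (.cut 1 (.leaf 0) (.cut 0 (.cut 1 (.cut 0 (.leaf 0) (.leaf 0)) (.leaf 0)) (.leaf 0)))))) (.cut 0 (.leaf 0) (.cut 1 (.leaf 0) (.cut 0 (.leaf 0) (.cut 1 (.cut 0 (.leaf 0) (.leaf 0)) (.cut 0 (.leaf 0) (.leaf 0))))))) (.cut 1 (.cut 0 (.leaf 0) (.cut 1 (.leaf 0) (.cut 0 (.cut 1 (.leaf 0) (.cut 0 (.leaf 0) (.cut 1 (.leaf 0) (.leaf 0)))) (.cut 1 (.leaf 0) (.cut 0 (.cut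 1 (.leaf 0) (.leaf 0)) (.leaf 0)))))) (.leaf 0))))) (.cut 0 (.leaf 4) (.cut 1 (.cut 0 (.cut 1 (.cut 0 (.leaf 0) (.leaf 0)) (.cut 0 (.leaf 0) (.cut 1 (.cut 0 (.leaf 0) (.cut 1 (.leaf 0) (.cut 0 (.cut 1 (.leaf 0) (.cut 0 (.leaf 0) (.cut 1 (.leaf 0) (.cut 0 (.cut 1 (.leaf 0) (.leaf 0)) (.cut 1 (.leaf 0) (.cut 0 (.leaf 0) (.leaf 0))))))) (.cut 1 (.leaf 0) (.cut 0 (.cut 1 (.leaf 0) (.cut 0 (.cut 1 (.leaf 0) (.leaf 0)) (.leaf 0))) (.leaf 0)))))) (.cut 0 (.leaf 0) (.leaf 0))))) (.cut 1 (.leaf 0) (.cut 0 (.cut 1 (.leaf 0) (.leaf 0)) (.cut 1 (.cut 0 (.leaf 0) (.leaf 0)) (.cut 0 (.cut 1 (.cut 0 (.leaf 0) (.cut 1 (.cut 0 (.cut 1 (.leaf 0) (.leaf 0)) (.cut 1 (.cut 0 (.cut 1 (.leaf 0) (.leaf 0)) (.cut 1 (.leaf 0) (.leaf 0))) (.leaf 0))) (.leaf 0))) (.leaf 0)) (.cut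 1 (.leaf 0) (.leaf 0))))))) (.leaf 0)))) (.cut 1 (.cut 0 (.cut 1 (.leaf 0) (.cut 0 (.cut 1 (.cut 0 (.cut 1 (.leaf 0) (.leaf 0)) (.leaf 0)) (.leaf 0)) (.cut 1 (.cut 0 (.cut 1 (.leaf 0) (.cut 0 (.leaf 0) (.cut 1 (.leaf 0) (.cut 0 (.leaf 0) (.cut 1 (.cut 0 (.leaf 0) (.cut 1 (.leaf 0) (.cut 0 (.leaf 0) (.cut 1 (.leaf 0) (.cut 0 (.leaf 0) (.leaf 0)))))) (.cut 0 (.leaf 0) (.cut 1 (.cut 0 (.leaf 0) (.leaf 0)) (.leaf 0)))))))) (.cut 1 (.leaf 0) (.cut 0 (.cut 1 (.leaf 0) (.leaf 0)) (.leaf 0)))) (.cut 0 (.cut 1 (.leaf 0) (.cut 0 (.leaf 0) (.cut 1 (.leaf 0) (.leaf 0)))) (.cut 1 (.leaf 0) (.cut 0 (.cut 1 (.cut 0 (.cut 1 (.leaf 0) (.cut 0 (.cut 1 (.leaf 0) (.cut 0 (.leaf 0) (.leaf 0))) (.leaf 0))) (.leaf 0)) (.leaf 0)) (.leaf 0))))))) (.leaf 0)) (.cut 0 (.cut 1 (.cut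 0 (.cut 1 (.cut 0 (.cut 1 (.cut 0 (.leaf 0) (.cut 1 (.leaf 0) (.cut 0 (.cut 1 (.cut 0 (.leaf 0) (.leaf 0)) (.leaf 0)) (.cut 1 (.leaf 0) (.leaf 0))))) (.leaf 0)) (.cut 1 (.leaf 0) (.leaf 0))) (.leaf 0)) (.leaf 0)) (.leaf 0)) (.leaf 0)))

theorem check6 : checkAlt 2 (mulAlts (xKnum 6) 16000000 30000 1800 3000 mus6) tree6 pairBox = true := by
  decide +kernel

/-- Multipliers of interval 7. -/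
def mus7 : List (Fin 3 × ℕ) := []

/-- A subtree of interval 7. -/
def tree7 : ACut :=
  .cut 0 (.cut 1 (.cut 0 (.cut 1 (.leaf 0) (.leaf 0)) (.cut 1 (.leaf 0) (.cut 0 (.cut 1 (.cut 0 (.cut 1 (.cut 0 (.leaf 0) (.cut 1 (.leaf 0) (.cut 0 (.leaf 0) (.cut 1 (.leaf 0) (.leaf 0))))) (.leaf 0)) (.cut 1 (.leaf 0) (.leaf 0))) (.cut 0 (.cut 1 (.leaf 0) (.cut 0 (.leaf 0) (.cut 1 (.leaf 0) (.cut 0 (.cut 1 (.leaf 0) (.cut 0 (.leaf 0) (.leaf 0))) (.leaf 0))))) (.leaf 0))) (.cut 1 (.cut 0 (.leaf 0) (.cut 1 (.cut 0 (.leaf 0) (.cut 1 (.leaf 0) (.cut 0 (.leaf 0) (.cut 1 (.cut 0 (.leaf 0) (.cut 1 (.leaf 0) (.leaf 0))) (.leaf 0))))) (.leaf 0))) (.leaf 0))))) (.cut 0 (.cut 1 (.leaf 0) (.leaf 0)) (.cut 1 (.cut 0 (.cut 1 (.cut 0 (.cut 1 (.cut 0 (.leaf 0) (.cut 1 (.cut 0 (.cut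 1 (.cut 0 (.leaf 0) (.cut 1 (.cut 0 (.leaf 0) (.leaf 0)) (.leaf 0))) (.leaf 0)) (.leaf 0)) (.leaf 0))) (.leaf 0)) (.leaf 0)) (.cut 0 (.cut 1 (.leaf 0) (.cut 0 (.leaf 0) (.cut 1 (.leaf 0) (.leaf 0)))) (.cut 1 (.leaf 0) (.cut 0 (.cut 1 (.cut 0 (.cut 1 (.cut 0 (.cut 1 (.leaf 0) (.leaf 0)) (.leaf 0)) (.leaf 0)) (.leaf 0)) (.leaf 0)) (.leaf 0))))) (.cut 1 (.leaf 0) (.cut 0 (.leaf 0) (.cut 1 (.leaf 0) (.cut 0 (.leaf 0) (.cut 1 (.cut 0 (.leaf 0) (.cut 1 (.leaf 0) (.leaf 0))) (.leaf 0))))))) (.leaf 0)))) (.cut 1 (.cut 0 (.cut 1 (.leaf 0) (.cut 0 (.cut 1 (.cut 0 (.cut 1 (.cut 0 (.cut 1 (.leaf 0) (.cut 0 (.cut 1 (.cut 0 (.cut 1 (.leaf 0) (.cut 0 (.cut 1 (.leaf 0) (.leaf 0)) (.cut 1 (.leaf 0) (.leaf 0)))) (.cut 1 (.leaf 0) (.leaf 0))) (.leaf 0)) (.cut 1 (.leaf 0)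 (.leaf 0)))) (.leaf 0)) (.leaf 0)) (.leaf 0)) (.leaf 0)) (.cut 1 (.cut 0 (.cut 1 (.leaf 0) (.leaf 0)) (.cut 1 (.cut 0 (.leaf 0) (.leaf 0)) (.cut 0 (.cut 1 (.cut 0 (.cut 1 (.cut 0 (.leaf 0) (.leaf 0)) (.leaf 0)) (.leaf 0)) (.leaf 0)) (.leaf 0)))) (.cut 0 (.leaf 0) (.cut 1 (.leaf 0) (.cut 0 (.cut 1 (.leaf 0) (.cut 0 (.leaf 0) (.cut 1 (.leaf 0) (.leaf 0)))) (.cut 1 (.leaf 0) (.leaf 0)))))))) (.leaf 2)) (.cut 0 (.cut 1 (.cut 0 (.cut 1 (.cut 0 (.cut 1 (.leaf 0) (.cut 0 (.leaf 0) (.cut 1 (.leaf 0) (.leaf 0)))) (.cut 1 (.cut 0 (.leaf 0) (.leaf 0)) (.cut 0 (.cut 1 (.cut 0 (.cut 1 (.leaf 0) (.leaf 0)) (.leaf 0)) (.leaf 0)) (.leaf 0)))) (.cut 0 (.cut 1 (.leaf 0) (.cut 0 (.cut 1 (.leaf 0) (.leaf 0)) (.leaf 0))) (.leaf 0))) (.cut 1 (.cut 0 (.leaf 0) (.cut 1 (.cut 0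 (.leaf 0) (.leaf 0)) (.leaf 0))) (.leaf 0))) (.leaf 2)) (.leaf 2)))

theorem check7 : checkAlt 2 (mulAlts (xKnum 7) 16000000 30000 3000 4200 mus7) tree7 pairBox = true := by
  decide +kernel

end Vale.Agent.P154.Ferro4.Maj
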