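import Vale.Agent.P154.Ferro4.Majorant
import Vale.Agent.P154.Ferro4.XData

/-!
P154, four states: kernel certificates of the pair inequalities of intervals 8.
Large trees are checked subtree by subtree.
-/

namespace Vale.Agent.P154.Ferro4.Maj

open PolyCheck

/-- Multipliers of interval 8. -/
def mus8 : List (Fin 3 × ℕ) := [(1, 1), (1, 2), (1, 4), (2, 1), (2, 2), (2, 4)]

/-- A subtree of interval 8. -/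
def tree8L : ACut :=
  .cut 1 (.cut 0 (.leaf 0) (.cut 1 (.leaf 0) (.cut 0 (.cut 1 (.cut 0 (.cut 1 (.cut 0 (.leaf 0) (.cut 1 (.leaf 0) (.cut 0 (.leaf 0) (.cut 1 (.leaf 0) (.cut 0 (.leaf 0) (.leaf 0)))))) (.cut 0 (.leaf 0) (.cut 1 (.cut 0 (.leaf 0) (.leaf 0)) (.leaf 0)))) (.cut 1 (.cut 0 (.cut 1 (.leaf 0) (.cut 0 (.cut 1 (.leaf 0) (.leaf 0)) (.leaf 0))) (.leaf 0)) (.leaf 0))) (.cut 0 (.leaf 0) (.leaf 0))) (.cut 1 (.cut 0 (.leaf 0) (.cut 1 (.leaf 0) (.leaf 0))) (.leaf 0))))) (.cut 0 (.cut 1 (.leaf 0) (.leaf 0)) (.cut 1 (.cut 0 (.cut 1 (.cut 0 (.cut 1 (.cut 0 (.leaf 0) (.leaf 0)) (.cut 0 (.leaf 0) (.cut 1 (.cut 0 (.cut 1 (.leaf 0) (.cut 0 (.leaf 0) (.leaf 0))) (.leaf 0)) (.cut 0 (.cut 1 (.cut 0 (.leaf 0) (.leaf 0)) (.leaf 0)) (.leaf 0))))) (.leaf 0)) (.cut 0 (.cut 1 (.cut 0 (.leaf 0) (.cut 1 (.cut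 0 (.leaf 0) (.leaf 0)) (.leaf 0))) (.cut 0 (.leaf 0) (.cut 1 (.leaf 0) (.leaf 0)))) (.cut 1 (.leaf 0) (.cut 0 (.cut 1 (.cut 0 (.cut 1 (.leaf 0) (.cut 0 (.cut 1 (.leaf 0) (.cut 0 (.leaf 0) (.leaf 0))) (.leaf 0))) (.leaf 0)) (.cut 0 (.cut 1 (.cut 0 (.cut 1 (.cut 0 (.leaf 0) (.leaf 0)) (.leaf 0)) (.leaf 0)) (.leaf 0)) (.leaf 0))) (.leaf 0))))) (.cut 1 (.leaf 7) (.cut 0 (.leaf 0) (.cut 1 (.leaf 7) (.leaf 0))))) (.cut 0 (.cut 1 (.cut 0 (.leaf 0) (.leaf 0)) (.leaf 0)) (.cut 1 (.cut 0 (.leaf 4) (.cut 1 (.leaf 6) (.leaf 2))) (.leaf 2)))))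

theorem check8L : checkAlt 2 (mulAlts (xKnum 8) 16000000 30000 4200 5700 mus8) tree8L (halve Iv.low 0 pairBox) = true := by
  decide +kernel

/-- A subtree of interval 8. -/
def tree8HL : ACut :=
  .cut 0 (.cut 1 (.leaf 0) (.cut 0 (.cut 1 (.cut 0 (.cut 1 (.cut 0 (.cut 1 (.leaf 0) (.leaf 0)) (.cut 1 (.leaf 0) (.leaf 0))) (.leaf 0)) (.cut 1 (.cut 0 (.cut 1 (.leaf 0) (.cut 0 (.cut 1 (.leaf 0) (.leaf 0)) (.cut 1 (.cut 0 (.cut 1 (.leaf 0) (.leaf 0)) (.cut 1 (.leaf 0) (.leaf 0))) (.leaf 0)))) (.cut 1 (.leaf 0) (.cut 0 (.cut 1 (.cut 0 (.cut 1 (.leaf 0) (.leaf 0)) (.leaf 0)) (.leaf 0)) (.cut 1 (.leaf 0) (.leaf 0))))) (.leaf 0))) (.leaf 7)) (.cut 1 (.cut 0 (.cut 1 (.cut 0 (.cut 1 (.leaf 0) (.cut 0 (.cut 1 (.leaf 0) (.leaf 0)) (.leaf 0))) (.leaf 0)) (.leaf 0)) (.cut 1 (.cut 0 (.leaf 0) (.leaf 0)) (.cut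 0 (.cut 1 (.cut 0 (.leaf 0) (.cut 1 (.cut 0 (.leaf 0) (.cut 1 (.cut 0 (.leaf 0) (.cut 1 (.leaf 0) (.leaf 0))) (.leaf 0))) (.leaf 0))) (.leaf 0)) (.cut 1 (.cut 0 (.cut 1 (.cut 0 (.cut 1 (.cut 0 (.cut 1 (.leaf 0) (.leaf 0)) (.leaf 0)) (.leaf 0)) (.leaf 0)) (.leaf 0)) (.leaf 0)) (.leaf 0))))) (.cut 0 (.leaf 7) (.leaf 0))))) (.cut 1 (.leaf 0) (.cut 0 (.cut 1 (.cut 0 (.cut 1 (.leaf 0) (.leaf 0)) (.leaf 0)) (.cut 0 (.cut 1 (.leaf 4) (.leaf 6)) (.leaf 2))) (.leaf 2)))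

theorem check8HL : checkAlt 2 (mulAlts (xKnum 8) 16000000 30000 4200 5700 mus8) tree8HL (halve Iv.low 1 (halve Iv.high 0 pairBox)) = true := by
  decide +kernel

/-- A subtree of interval 8. -/
def tree8HHLLLL : ACut :=
  .cut 0 (.cut 1 (.leaf 9) (.leaf 3)) (.leaf 3)

theorem check8HHLLLL : checkAlt 2 (mulAlts (xKnum 8) 16000000 30000 4200 5700 mus8) tree8HHLLLL (halve Iv.low 1 (halve Iv.low 0 (halve Iv.low 1 (halve Iv.low 0 (halve Iv.high 1 (halve Iv.high 0 pairBox)))))) = true := by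
  decide +kernel

/-- A subtree of interval 8. -/
def tree8HHLLLHL : ACut :=
  .cut 1 (.cut 0 (.leaf 9) (.cut 1 (.leaf 3) (.cut 0 (.cut 1 (.leaf 9) (.leaf 0)) (.cut 1 (.cut 0 (.leaf 9) (.cut 1 (.leaf 3) (.leaf 8))) (.leaf 0))))) (.cut 0 (.cut 1 (.leaf 0) (.cut 0 (.leaf 0) (.cut 1 (.leaf 0) (.leaf 4)))) (.cut 1 (.leaf 0) (.cut 0 (.cut 1 (.leaf 0) (.leaf 5)) (.cut 1 (.cut 0 (.cut 1 (.leaf 0) (.cut 0 (.leaf 4) (.cut 1 (.leaf 0) (.leaf 5)))) (.cut 1 (.leaf 0) (.cut 0 (.cut 1 (.leaf 4) (.leaf 5)) (.cut 1 (.cut 0 (.cut 1 (.leaf 0) (.leaf 5)) (.cut 1 (.leaf 4) (.leaf 5))) (.leaf 2))))) (.leaf 2)))))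

theorem check8HHLLLHL : checkAlt 2 (mulAlts (xKnum 8) 16000000 30000 4200 5700 mus8) tree8HHLLLHL (halve Iv.low 0 (halve Iv.high 1 (halve Iv.low 0 (halve Iv.low 1 (halve Iv.low 0 (halve Iv.high 1 (halve Iv.high 0 pairBox))))))) = true := by
  decide +kernel

/-- A subtree of interval 8. -/
def tree8HHLLLHHL : ACut :=
  .cut 0 (.cut 1 (.cut 0 (.leaf 3) (.cut 1 (.leaf 3) (.cut 0 (.leaf 3) (.cut 1 (.leaf 3) (.cut 0 (.cut 1 (.leaf 3) (.cut 0 (.leaf 3) (.cut 1 (.leaf 3) (.cut 0 (.cut 1 (.leaf 3) (.cut 0 (.leaf 9) (.cut 1 (.leaf 3) (.cut 0 (.leaf 9) (.leaf 8))))) (.cut 1 (.leaf 9) (.cut 0 (.cut 1 (.leaf 9) (.leaf 0)) (.cut 1 (.cut 0 (.leaf 9) (.leaf 7)) (.leaf 0)))))))) (.cut 1 (.leaf 3) (.cut 0 (.cut 1 (.leaf 9) (.cut 0 (.cut 1 (.cut 0 (.leaf 9) (.cut 1 (.leaf 9) (.leaf 8))) (.leaf 0)) (.cut 1 (.cut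 0 (.cut 1 (.leaf 9) (.leaf 0)) (.leaf 8)) (.leaf 0)))) (.cut 1 (.cut 0 (.cut 1 (.leaf 3) (.cut 0 (.leaf 9) (.cut 1 (.leaf 9) (.leaf 0)))) (.cut 1 (.leaf 9) (.cut 0 (.cut 1 (.leaf 9) (.leaf 0)) (.leaf 0)))) (.leaf 0))))))))) (.cut 0 (.cut 1 (.cut 0 (.cut 1 (.leaf 3) (.leaf 8)) (.cut 1 (.cut 0 (.leaf 9) (.cut 1 (.leaf 3) (.cut 0 (.cut 1 (.leaf 9) (.leaf 7)) (.cut 1 (.cut 0 (.leaf 9) (.cut 1 (.leaf 9) (.leaf 7))) (.leaf 0))))) (.leaf 0))) (.leaf 0)) (.cut 1 (.cut 0 (.cut 1 (.cut 0 (.cut 1 (.cut 0 (.leaf 9) (.cut 1 (.leaf 3) (.cut 0 (.leaf 9) (.cut 1 (.leaf 3) (.cut 0 (.cut 1 (.leaf 9) (.leaf 0)) (.leaf 8)))))) (.cut 0 (.cut 1 (.cut 0 (.cut 1 (.leaf 9) (.leaf 0)) (.leaf 8)) (.leaf 0)) (.leaf 0))) (.cut 1 (.cut 0 (.cut 1 (.leaf 3) (.cut 0 (.cut 1 (.leaf 9) (.leaf 0)) (.cut 1 (.cut 0 (.cut 1 (.leaf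 9) (.leaf 0)) (.cut 1 (.leaf 9) (.leaf 0))) (.leaf 0)))) (.cut 1 (.cut 0 (.leaf 9) (.cut 1 (.leaf 3) (.cut 0 (.cut 1 (.leaf 9) (.leaf 0)) (.cut 1 (.leaf 9) (.leaf 0))))) (.leaf 0))) (.leaf 0))) (.leaf 0)) (.cut 1 (.cut 0 (.cut 1 (.cut 0 (.cut 1 (.cut 0 (.cut 1 (.cut 0 (.leaf 9) (.cut 1 (.leaf 3) (.cut 0 (.leaf 9) (.leaf 8)))) (.leaf 7)) (.cut 1 (.cut 0 (.cut 1 (.leaf 9) (.leaf 0)) (.cut 1 (.cut 0 (.leaf 9) (.leaf 8)) (.leaf 0))) (.leaf 0))) (.leaf 0)) (.leaf 0)) (.leaf 0)) (.leaf 0)) (.leaf 0))) (.leaf 0)))) (.cut 1 (.cut 0 (.cut 1 (.leaf 3) (.cut 0 (.cut 1 (.leaf 9) (.cut 0 (.cut 1 (.cut 0 (.leaf 9) (.cut 1 (.leaf 3) (.cut 0 (.cut 1 (.leaf 9) (.cut 0 (.leaf 9) (.leaf 7))) (.cut 1 (.leaf 9) (.leaf 0))))) (.cut 0 (.cut 1 (.cut 0 (.cut 1 (.cut 0 (.leaf 9) (.cut 1 (.leaf 9) (.leaf 0))) (.leaf 0))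 (.leaf 0)) (.leaf 0)) (.leaf 0))) (.cut 1 (.cut 0 (.cut 1 (.leaf 9) (.leaf 8)) (.cut 1 (.cut 0 (.leaf 9) (.leaf 8)) (.leaf 0))) (.leaf 0)))) (.cut 1 (.cut 0 (.cut 1 (.leaf 3) (.cut 0 (.leaf 9) (.cut 1 (.leaf 9) (.leaf 7)))) (.cut 1 (.leaf 9) (.cut 0 (.cut 1 (.leaf 9) (.leaf 0)) (.leaf 0)))) (.leaf 0)))) (.cut 1 (.cut 0 (.leaf 9) (.cut 1 (.leaf 9) (.cut 0 (.cut 1 (.leaf 9) (.leaf 0)) (.leaf 0)))) (.cut 0 (.cut 1 (.cut 0 (.cut 1 (.cut 0 (.leaf 9) (.leaf 0)) (.leaf 0)) (.leaf 0)) (.leaf 0)) (.leaf 0)))) (.leaf 0))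

theorem check8HHLLLHHL : checkAlt 2 (mulAlts (xKnum 8) 16000000 30000 4200 5700 mus8) tree8HHLLLHHL (halve Iv.low 1 (halve Iv.high 0 (halve Iv.high 1 (halve Iv.low 0 (halve Iv.low 1 (halve Iv.low 0 (halve Iv.high 1 (halve Iv.high 0 pairBox)))))))) = true := by
  decide +kernel

/-- A subtree of interval 8. -/
def tree8HHLLLHHH : ACut :=
  .cut 0 (.cut 1 (.cut 0 (.leaf 0) (.cut 1 (.leaf 0) (.cut 0 (.cut 1 (.leaf 0) (.leaf 4)) (.cut 1 (.leaf 0) (.cut 0 (.cut 1 (.leaf 0) (.cut 0 (.cut 1 (.leaf 0) (.leaf 5)) (.leaf 5))) (.cut 1 (.leaf 4) (.leaf 5))))))) (.cut 0 (.cut 1 (.cut 0 (.cut 1 (.cut 0 (.leaf 4) (.cut 1 (.leaf 0) (.cut 0 (.cut 1 (.leaf 0) (.cut 0 (.cut 1 (.leaf 0) (.cut 0 (.cut 1 (.leaf 4) (.leaf 5)) (.cut 1 (.leaf 4) (.leaf 2)))) (.cut 1 (.leaf 4) (.leaf 5)))) (.cut 1 (.leaf 4) (.cut 0 (.cut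 1 (.cut 0 (.cut 1 (.leaf 0) (.cut 0 (.cut 1 (.leaf 4) (.leaf 2)) (.leaf 5))) (.cut 1 (.leaf 4) (.leaf 5))) (.leaf 2)) (.cut 1 (.cut 0 (.cut 1 (.cut 0 (.cut 1 (.leaf 4) (.leaf 5)) (.cut 1 (.leaf 4) (.leaf 2))) (.leaf 2)) (.leaf 5)) (.leaf 2))))))) (.cut 0 (.cut 1 (.cut 0 (.cut 1 (.cut 0 (.cut 1 (.leaf 0) (.leaf 5)) (.cut 1 (.leaf 4) (.leaf 2))) (.leaf 2)) (.cut 1 (.cut 0 (.cut 1 (.cut 0 (.cut 1 (.leaf 4) (.leaf 2)) (.leaf 5)) (.leaf 2)) (.leaf 5)) (.leaf 2))) (.leaf 2)) (.leaf 2))) (.cut 1 (.cut 0 (.cut 1 (.leaf 0) (.cut 0 (.cut 1 (.cut 0 (.cut 1 (.leaf 0) (.cut 0 (.cut 1 (.leaf 0) (.cut 0 (.cut 1 (.leaf 0) (.cut 0 (.cut 1 (.leaf 4) (.leaf 2)) (.leaf 5))) (.cut 1 (.leaf 4) (.leaf 2)))) (.cut 1 (.leaf 4) (.cut 0 (.cut 1 (.cut 0 (.cut 1 (.leaf 0) (.leaf 5)) (.leaf 5)) (.leaf 2)) (.leaf 5))))) (.cut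 1 (.leaf 0) (.cut 0 (.cut 1 (.cut 0 (.cut 1 (.leaf 0) (.cut 0 (.leaf 4) (.cut 1 (.leaf 4) (.leaf 2)))) (.cut 1 (.leaf 4) (.leaf 5))) (.leaf 2)) (.cut 1 (.cut 0 (.cut 1 (.cut 0 (.leaf 4) (.cut 1 (.leaf 0) (.leaf 5))) (.leaf 2)) (.cut 1 (.cut 0 (.cut 1 (.leaf 4) (.leaf 2)) (.leaf 5)) (.leaf 2))) (.leaf 2))))) (.leaf 2)) (.cut 1 (.cut 0 (.cut 1 (.cut 0 (.cut 1 (.leaf 0) (.cut 0 (.leaf 4) (.cut 1 (.leaf 0) (.cut 0 (.cut 1 (.leaf 4) (.leaf 2)) (.leaf 5))))) (.cut 1 (.leaf 0) (.cut 0 (.cut 1 (.leaf 4) (.leaf 5)) (.cut 1 (.cut 0 (.leaf 4) (.leaf 5)) (.leaf 2))))) (.leaf 2)) (.cut 1 (.cut 0 (.cut 1 (.cut 0 (.leaf 4) (.cut 1 (.leaf 0) (.cut 0 (.leaf 4) (.cut 1 (.leaf 4) (.leaf 2))))) (.leaf 5)) (.cut 1 (.cut 0 (.cut 1 (.leaf 4) (.leaf 5)) (.cut 1 (.leaf 4) (.leaf 2))) (.leaf 2))) (.leaf 2))) (.leaf 2))))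 (.cut 1 (.cut 0 (.cut 1 (.leaf 0) (.cut 0 (.cut 1 (.leaf 0) (.cut 0 (.leaf 4) (.cut 1 (.leaf 0) (.cut 0 (.cut 1 (.leaf 0) (.leaf 5)) (.cut 1 (.leaf 4) (.leaf 2)))))) (.cut 1 (.leaf 0) (.cut 0 (.cut 1 (.leaf 4) (.leaf 5)) (.cut 1 (.leaf 4) (.leaf 2)))))) (.cut 1 (.leaf 0) (.cut 0 (.cut 1 (.leaf 4) (.leaf 5)) (.cut 1 (.cut 0 (.cut 1 (.leaf 0) (.leaf 5)) (.cut 1 (.leaf 4) (.leaf 2))) (.leaf 2))))) (.leaf 5))) (.leaf 2))) (.leaf 2)) (.cut 1 (.cut 0 (.cut 1 (.cut 0 (.cut 1 (.cut 0 (.cut 1 (.leaf 4) (.leaf 5)) (.cut 1 (.cut 0 (.cut 1 (.leaf 0) (.leaf 5)) (.cut 1 (.leaf 4) (.leaf 2))) (.leaf 2))) (.leaf 2)) (.leaf 5)) (.leaf 2)) (.leaf 2)) (.leaf 2)))) (.cut 1 (.cut 0 (.cut 1 (.leaf 0) (.cut 0 (.cut 1 (.leaf 0) (.leaf 5)) (.cut 1 (.leaf 4) (.leaf 2)))) (.cut 1 (.leaf 4) (.leaf 5))) (.leaf 2))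

theorem check8HHLLLHHH : checkAlt 2 (mulAlts (xKnum 8) 16000000 30000 4200 5700 mus8) tree8HHLLLHHH (halve Iv.high 1 (halve Iv.high 0 (halve Iv.high 1 (halve Iv.low 0 (halve Iv.low 1 (halve Iv.low 0 (halve Iv.high 1 (halve Iv.high 0 pairBox)))))))) = true := by
  decide +kernel

/-- A subtree of interval 8. -/
def tree8HHLLLHH : ACut :=
  .cut 1 tree8HHLLLHHL tree8HHLLLHHH

theorem check8HHLLLHH : checkAlt 2 (mulAlts (xKnum 8) 16000000 30000 4200 5700 mus8) tree8HHLLLHH (halve Iv.high 0 (halve Iv.high 1 (halve Iv.low 0 (halve Iv.low 1 (halve Iv.low 0 (halve Iv.high 1 (halve Iv.high 0 pairBox))))))) = true := by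
  simp only [tree8HHLLLHH, checkAlt, check8HHLLLHHL, check8HHLLLHHH, Bool.and_self]

/-- A subtree of interval 8. -/
def tree8HHLLLH : ACut :=
  .cut 0 tree8HHLLLHL tree8HHLLLHH

theorem check8HHLLLH : checkAlt 2 (mulAlts (xKnum 8) 16000000 30000 4200 5700 mus8) tree8HHLLLH (halve Iv.high 1 (halve Iv.low 0 (halve Iv.low 1 (halve Iv.low 0 (halve Iv.high 1 (halve Iv.high 0 pairBox)))))) = true := by
  simp only [tree8HHLLLH, checkAlt, check8HHLLLHL, check8HHLLLHH, Bool.and_self]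

/-- A subtree of interval 8. -/
def tree8HHLLL : ACut :=
  .cut 1 tree8HHLLLL tree8HHLLLH

theorem check8HHLLL : checkAlt 2 (mulAlts (xKnum 8) 16000000 30000 4200 5700 mus8) tree8HHLLL (halve Iv.low 0 (halve Iv.low 1 (halve Iv.low 0 (halve Iv.high 1 (halve Iv.high 0 pairBox))))) = true := by
  simp only [tree8HHLLL, checkAlt, check8HHLLLL, check8HHLLLH, Bool.and_self]

/-- A subtree of interval 8. -/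
def tree8HHLLHLL : ACut :=
  .cut 1 (.cut 0 (.leaf 3) (.cut 1 (.leaf 8) (.cut 0 (.cut 1 (.leaf 9) (.cut 0 (.leaf 3) (.leaf 8))) (.leaf 0)))) (.cut 0 (.cut 1 (.cut 0 (.leaf 3) (.cut 1 (.leaf 3) (.cut 0 (.leaf 3) (.cut 1 (.leaf 3) (.cut 0 (.leaf 3) (.cut 1 (.cut 0 (.leaf 3) (.cut 1 (.leaf 3) (.cut 0 (.leaf 9) (.cut 1 (.cut 0 (.leaf 3) (.cut 1 (.leaf 9) (.cut 0 (.leaf 9) (.leaf 0)))) (.cut 0 (.cut 1 (.leaf 9) (.cut 0 (.leaf 9) (.leaf 0))) (.leaf 0)))))) (.cut 0 (.cut 1 (.leaf 9) (.cut 0 (.leaf 9) (.cut 1 (.cut 0 (.leaf 9) (.cut 1 (.leaf 9) (.leaf 0))) (.cut 0 (.cut 1 (.leaf 9) (.leaf 0)) (.leaf 0))))) (.cut 1 (.cut 0 (.cut 1 (.cut 0 (.leaf 9) (.cut 1 (.leaf 9) (.leaf 8))) (.cut 0 (.cut 1 (.leaf 9) (.leaf 8)) (.leaf 0))) (.leaf 0)) (.leaf 0))))))))) (.cut 0 (.cut 1 (.leaf 3) (.cut 0 (.leaf 9) (.cut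 1 (.leaf 9) (.cut 0 (.cut 1 (.leaf 9) (.leaf 0)) (.leaf 0))))) (.cut 1 (.cut 0 (.cut 1 (.leaf 9) (.cut 0 (.leaf 9) (.cut 1 (.cut 0 (.leaf 9) (.cut 1 (.leaf 9) (.leaf 7))) (.cut 0 (.cut 1 (.leaf 9) (.leaf 0)) (.leaf 0))))) (.cut 1 (.cut 0 (.cut 1 (.cut 0 (.leaf 3) (.cut 1 (.leaf 9) (.cut 0 (.leaf 9) (.cut 1 (.cut 0 (.leaf 9) (.leaf 0)) (.leaf 0))))) (.cut 0 (.cut 1 (.leaf 9) (.cut 0 (.leaf 9) (.leaf 0))) (.leaf 8))) (.cut 1 (.cut 0 (.cut 1 (.cut 0 (.cut 1 (.cut 0 (.leaf 9) (.leaf 8)) (.leaf 0)) (.leaf 0)) (.leaf 0)) (.leaf 0)) (.leaf 0))) (.leaf 0))) (.cut 0 (.cut 1 (.cut 0 (.cut 1 (.cut 0 (.leaf 9) (.leaf 0)) (.leaf 0)) (.leaf 0)) (.leaf 0)) (.leaf 0))))) (.cut 1 (.cut 0 (.cut 1 (.cut 0 (.cut 1 (.leaf 3) (.cut 0 (.leaf 3) (.cut 1 (.leaf 9) (.cut 0 (.cut 1 (.leaf 9) (.cut 0 (.leaf 9) (.leaf 8)))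 (.leaf 7))))) (.leaf 8)) (.cut 0 (.cut 1 (.cut 0 (.cut 1 (.cut 0 (.leaf 3) (.cut 1 (.leaf 9) (.cut 0 (.leaf 3) (.cut 1 (.leaf 9) (.cut 0 (.leaf 9) (.leaf 0)))))) (.cut 0 (.cut 1 (.leaf 3) (.cut 0 (.leaf 3) (.cut 1 (.leaf 9) (.cut 0 (.leaf 9) (.leaf 0))))) (.cut 1 (.cut 0 (.cut 1 (.leaf 9) (.cut 0 (.leaf 9) (.leaf 0))) (.leaf 0)) (.leaf 0)))) (.cut 1 (.cut 0 (.cut 1 (.cut 0 (.cut 1 (.leaf 9) (.leaf 8)) (.leaf 0)) (.leaf 0)) (.leaf 0)) (.leaf 0))) (.cut 0 (.cut 1 (.cut 0 (.cut 1 (.cut 0 (.cut 1 (.cut 0 (.leaf 3) (.cut 1 (.leaf 9) (.cut 0 (.leaf 9) (.leaf 0)))) (.cut 0 (.cut 1 (.leaf 9) (.cut 0 (.leaf 9) (.leaf 0))) (.leaf 0))) (.leaf 7)) (.leaf 0)) (.leaf 0)) (.leaf 0)) (.leaf 0))) (.leaf 0))) (.leaf 0)) (.leaf 0)))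

theorem check8HHLLHLL : checkAlt 2 (mulAlts (xKnum 8) 16000000 30000 4200 5700 mus8) tree8HHLLHLL (halve Iv.low 0 (halve Iv.low 1 (halve Iv.high 0 (halve Iv.low 1 (halve Iv.low 0 (halve Iv.high 1 (halve Iv.high 0 pairBox))))))) = true := by
  decide +kernel

/-- A subtree of interval 8. -/
def tree8HHLLHLH : ACut :=
  .cut 1 (.cut 0 (.leaf 0) (.cut 1 (.cut 0 (.leaf 0) (.leaf 4)) (.cut 0 (.cut 1 (.leaf 0) (.cut 0 (.leaf 0) (.cut 1 (.cut 0 (.leaf 0) (.cut 1 (.leaf 4) (.leaf 5))) (.cut 0 (.cut 1 (.leaf 4) (.cut 0 (.leaf 4) (.leaf 5))) (.leaf 5))))) (.cut 1 (.leaf 5) (.leaf 2))))) (.cut 0 (.cut 1 (.cut 0 (.leaf 0) (.cut 1 (.leaf 0) (.cut 0 (.leaf 0) (.cut 1 (.leaf 4) (.cut 0 (.leaf 4) (.cut 1 (.cut 0 (.leaf 4) (.leaf 5)) (.leaf 5))))))) (.cut 0 (.cut 1 (.leaf 0) (.leaf 4)) (.cut 1 (.cut 0 (.leaf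 4) (.leaf 5)) (.leaf 5)))) (.cut 1 (.cut 0 (.cut 1 (.cut 0 (.cut 1 (.cut 0 (.leaf 0) (.cut 1 (.leaf 4) (.cut 0 (.leaf 4) (.cut 1 (.cut 0 (.leaf 4) (.cut 1 (.cut 0 (.leaf 4) (.leaf 5)) (.leaf 5))) (.cut 0 (.cut 1 (.cut 0 (.leaf 4) (.cut 1 (.cut 0 (.leaf 4) (.leaf 2)) (.leaf 5))) (.cut 0 (.cut 1 (.cut 0 (.leaf 4) (.leaf 5)) (.leaf 5)) (.leaf 2))) (.leaf 2)))))) (.cut 0 (.cut 1 (.leaf 0) (.cut 0 (.leaf 0) (.cut 1 (.cut 0 (.leaf 0) (.cut 1 (.cut 0 (.leaf 0) (.cut 1 (.leaf 4) (.cut 0 (.leaf 4) (.leaf 5)))) (.cut 0 (.leaf 4) (.leaf 5)))) (.cut 0 (.cut 1 (.leaf 4) (.cut 0 (.leaf 4) (.leaf 5))) (.leaf 5))))) (.cut 1 (.cut 0 (.cut 1 (.cut 0 (.leaf 0) (.cut 1 (.cut 0 (.leaf 4) (.cut 1 (.cut 0 (.leaf 4) (.cut 1 (.cut 0 (.leaf 4) (.leaf 2)) (.leaf 2))) (.cut 0 (.cut 1 (.cut 0 (.leaf 4) (.leaf 5)) (.leaf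 5)) (.leaf 2)))) (.cut 0 (.cut 1 (.cut 0 (.leaf 4) (.cut 1 (.cut 0 (.leaf 4) (.leaf 5)) (.leaf 5))) (.cut 0 (.cut 1 (.cut 0 (.leaf 0) (.leaf 5)) (.cut 0 (.leaf 4) (.leaf 2))) (.leaf 2))) (.leaf 2)))) (.cut 0 (.cut 1 (.cut 0 (.leaf 0) (.cut 1 (.cut 0 (.leaf 0) (.cut 1 (.leaf 4) (.cut 0 (.leaf 4) (.leaf 2)))) (.cut 0 (.cut 1 (.leaf 4) (.cut 0 (.leaf 4) (.leaf 5))) (.leaf 5)))) (.cut 0 (.cut 1 (.cut 0 (.leaf 0) (.cut 1 (.leaf 4) (.cut 0 (.leaf 4) (.leaf 5)))) (.cut 0 (.leaf 4) (.leaf 5))) (.leaf 5))) (.leaf 2))) (.leaf 2)) (.leaf 5)))) (.cut 1 (.cut 0 (.cut 1 (.cut 0 (.cut 1 (.cut 0 (.leaf 4) (.leaf 5)) (.cut 0 (.cut 1 (.cut 0 (.leaf 4) (.leaf 2)) (.leaf 5)) (.leaf 2))) (.leaf 2)) (.leaf 2)) (.leaf 2)) (.leaf 2))) (.cut 0 (.cut 1 (.cut 0 (.cut 1 (.cut 0 (.cut 1 (.leaf 4) (.cut 0 (.leaf 4) (.leaf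 5))) (.leaf 5)) (.leaf 5)) (.leaf 2)) (.leaf 2)) (.leaf 2))) (.leaf 2)) (.leaf 2)))

theorem check8HHLLHLH : checkAlt 2 (mulAlts (xKnum 8) 16000000 30000 4200 5700 mus8) tree8HHLLHLH (halve Iv.high 0 (halve Iv.low 1 (halve Iv.high 0 (halve Iv.low 1 (halve Iv.low 0 (halve Iv.high 1 (halve Iv.high 0 pairBox))))))) = true := by
  decide +kernel

/-- A subtree of interval 8. -/
def tree8HHLLHL : ACut :=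
  .cut 0 tree8HHLLHLL tree8HHLLHLH

theorem check8HHLLHL : checkAlt 2 (mulAlts (xKnum 8) 16000000 30000 4200 5700 mus8) tree8HHLLHL (halve Iv.low 1 (halve Iv.high 0 (halve Iv.low 1 (halve Iv.low 0 (halve Iv.high 1 (halve Iv.high 0 pairBox)))))) = true := by
  simp only [tree8HHLLHL, checkAlt, check8HHLLHLL, check8HHLLHLH, Bool.and_self]

/-- A subtree of interval 8. -/
def tree8HHLLHH : ACut :=
  .cut 0 (.cut 1 (.cut 0 (.cut 1 (.cut 0 (.cut 1 (.cut 0 (.cut 1 (.cut 0 (.cut 1 (.leaf 9) (.leaf 0)) (.leaf 0)) (.leaf 0)) (.leaf 0)) (.leaf 0)) (.leaf 0)) (.cut 0 (.leaf 0) (.leaf 4))) (.cut 1 (.cut 0 (.leaf 0) (.leaf 4)) (.cut 0 (.leaf 5) (.leaf 2)))) (.cut 0 (.cut 1 (.cut 0 (.cut 1 (.leaf 5) (.leaf 2)) (.leaf 2)) (.leaf 2)) (.leaf 2))) (.cut 1 (.cut 0 (.cut 1 (.cut 0 (.cut 1 (.leaf 5) (.leaf 2)) (.leaf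 2)) (.leaf 2)) (.leaf 2)) (.leaf 2))

theorem check8HHLLHH : checkAlt 2 (mulAlts (xKnum 8) 16000000 30000 4200 5700 mus8) tree8HHLLHH (halve Iv.high 1 (halve Iv.high 0 (halve Iv.low 1 (halve Iv.low 0 (halve Iv.high 1 (halve Iv.high 0 pairBox)))))) = true := by
  decide +kernel

/-- A subtree of interval 8. -/
def tree8HHLLH : ACut :=
  .cut 1 tree8HHLLHL tree8HHLLHH

theorem check8HHLLH : checkAlt 2 (mulAlts (xKnum 8) 16000000 30000 4200 5700 mus8) tree8HHLLH (halve Iv.high 0 (halve Iv.low 1 (halve Iv.low 0 (halve Iv.high 1 (halve Iv.high 0 pairBox))))) = true := by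
  simp only [tree8HHLLH, checkAlt, check8HHLLHL, check8HHLLHH, Bool.and_self]

/-- A subtree of interval 8. -/
def tree8HHLL : ACut :=
  .cut 0 tree8HHLLL tree8HHLLH

theorem check8HHLL : checkAlt 2 (mulAlts (xKnum 8) 16000000 30000 4200 5700 mus8) tree8HHLL (halve Iv.low 1 (halve Iv.low 0 (halve Iv.high 1 (halve Iv.high 0 pairBox)))) = true := by
  simp only [tree8HHLL, checkAlt, check8HHLLL, check8HHLLH, Bool.and_self]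

/-- A subtree of interval 8. -/
def tree8HHLH : ACut :=
  .leaf 2

theorem check8HHLH : checkAlt 2 (mulAlts (xKnum 8) 16000000 30000 4200 5700 mus8) tree8HHLH (halve Iv.high 1 (halve Iv.low 0 (halve Iv.high 1 (halve Iv.high 0 pairBox)))) = true := by
  decide +kernel

/-- A subtree of interval 8. -/
def tree8HHL : ACut :=
  .cut 1 tree8HHLL tree8HHLH

theorem check8HHL : checkAlt 2 (mulAlts (xKnum 8) 16000000 30000 4200 5700 mus8) tree8HHL (halve Iv.low 0 (halve Iv.high 1 (halve Iv.high 0 pairBox))) = true := by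
  simp only [tree8HHL, checkAlt, check8HHLL, check8HHLH, Bool.and_self]

/-- A subtree of interval 8. -/
def tree8HHH : ACut :=
  .leaf 2

theorem check8HHH : checkAlt 2 (mulAlts (xKnum 8) 16000000 30000 4200 5700 mus8) tree8HHH (halve Iv.high 0 (halve Iv.high 1 (halve Iv.high 0 pairBox))) = true := by
  decide +kernel

/-- A subtree of interval 8. -/
def tree8HH : ACut :=
  .cut 0 tree8HHL tree8HHH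

theorem check8HH : checkAlt 2 (mulAlts (xKnum 8) 16000000 30000 4200 5700 mus8) tree8HH (halve Iv.high 1 (halve Iv.high 0 pairBox)) = true := by
  simp only [tree8HH, checkAlt, check8HHL, check8HHH, Bool.and_self]

/-- A subtree of interval 8. -/
def tree8H : ACut :=
  .cut 1 tree8HL tree8HH

theorem check8H : checkAlt 2 (mulAlts (xKnum 8) 16000000 30000 4200 5700 mus8) tree8H (halve Iv.high 0 pairBox) = true := by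
  simp only [tree8H, checkAlt, check8HL, check8HH, Bool.and_self]

/-- A subtree of interval 8. -/
def tree8 : ACut :=
  .cut 0 tree8L tree8H

theorem check8 : checkAlt 2 (mulAlts (xKnum 8) 16000000 30000 4200 5700 mus8) tree8 pairBox = true := by
  simp only [tree8, checkAlt, check8L, check8H, Bool.and_self]

end Vale.Agent.P154.Ferro4.Maj
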