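import Vale.Agent.P154.Ferro4.Majorant
import Vale.Agent.P154.Ferro4.XData

/-!
P154, four states: kernel certificates of the pair inequalities of intervals 9, 10.
Large trees are checked subtree by subtree.
-/

namespace Vale.Agent.P154.Ferro4.Maj

open PolyCheck

/-- Multipliers of interval 9. -/
def mus9 : List (Fin 3 × ℕ) := [(1, 1), (1, 2), (1, 4), (2, 1), (2, 2), (2, 4), (2, 8)]

/-- A subtree of interval 9. -/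
def tree9L : ACut :=
  .cut 1 (.cut 0 (.leaf 0) (.cut 1 (.leaf 0) (.cut 0 (.cut 1 (.cut 0 (.cut 1 (.leaf 0) (.cut 0 (.leaf 0) (.cut 1 (.cut 0 (.leaf 0) (.leaf 0)) (.leaf 0)))) (.cut 1 (.cut 0 (.cut 1 (.leaf 0) (.cut 0 (.leaf 0) (.leaf 0))) (.leaf 0)) (.cut 0 (.cut 1 (.leaf 0) (.leaf 0)) (.leaf 0)))) (.cut 0 (.leaf 0) (.leaf 0))) (.cut 1 (.cut 0 (.leaf 0) (.cut 1 (.leaf 0) (.leaf 0))) (.leaf 0))))) (.cut 0 (.cut 1 (.leaf 0) (.leaf 0)) (.cut 1 (.cut 0 (.cut 1 (.cut 0 (.cut 1 (.cut 0 (.cut 1 (.leaf 0) (.cut 0 (.leaf 0) (.leaf 0))) (.leaf 0)) (.cut 0 (.cut 1 (.cut 0 (.leaf 0) (.cut 1 (.cut 0 (.cut 1 (.leaf 0) (.cut 0 (.leaf 0) (.leaf 0))) (.leaf 0)) (.cut 0 (.leaf 0) (.leaf 0)))) (.cut 0 (.leaf 0) (.leaf 0))) (.leaf 0))) (.leaf 0)) (.cut 0 (.leaf 0) (.leaf 0))) (.cut 1 (.leaf 7) (.cut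 0 (.leaf 0) (.cut 1 (.leaf 3) (.cut 0 (.leaf 0) (.cut 1 (.leaf 3) (.leaf 0))))))) (.cut 0 (.cut 1 (.cut 0 (.cut 1 (.cut 0 (.leaf 0) (.cut 1 (.cut 0 (.leaf 0) (.cut 1 (.leaf 0) (.cut 0 (.cut 1 (.leaf 0) (.cut 0 (.leaf 0) (.leaf 0))) (.leaf 0)))) (.cut 0 (.leaf 0) (.cut 1 (.cut 0 (.cut 1 (.cut 0 (.leaf 0) (.leaf 0)) (.leaf 0)) (.leaf 0)) (.leaf 0))))) (.leaf 0)) (.cut 1 (.cut 0 (.leaf 0) (.cut 1 (.leaf 0) (.leaf 4))) (.leaf 2))) (.leaf 2)) (.cut 1 (.cut 0 (.cut 1 (.cut 0 (.cut 1 (.leaf 0) (.leaf 4)) (.cut 1 (.leaf 0) (.leaf 5))) (.leaf 2)) (.cut 1 (.cut 0 (.cut 1 (.leaf 0) (.leaf 5)) (.cut 1 (.cut 0 (.cut 1 (.leaf 0) (.cut 0 (.leaf 0) (.cut 1 (.leaf 0) (.cut 0 (.cut 1 (.leaf 0) (.leaf 4)) (.cut 1 (.leaf 0) (.cut 0 (.leaf 4) (.cut 1 (.leaf 0) (.leaf 4)))))))) (.cut 1 (.leaf 0) (.cut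 0 (.cut 1 (.leaf 0) (.cut 0 (.cut 1 (.leaf 0) (.cut 0 (.cut 1 (.leaf 0) (.leaf 4)) (.cut 1 (.cut 0 (.leaf 0) (.cut 1 (.leaf 0) (.cut 0 (.leaf 0) (.cut 1 (.leaf 0) (.leaf 4))))) (.leaf 4)))) (.cut 1 (.leaf 0) (.cut 0 (.cut 1 (.cut 0 (.cut 1 (.leaf 0) (.cut 0 (.cut 1 (.leaf 0) (.leaf 4)) (.cut 1 (.leaf 0) (.leaf 4)))) (.cut 1 (.leaf 0) (.cut 0 (.cut 1 (.leaf 0) (.leaf 4)) (.cut 1 (.leaf 0) (.leaf 4))))) (.leaf 2)) (.cut 1 (.cut 0 (.cut 1 (.leaf 0) (.leaf 4)) (.cut 1 (.leaf 0) (.leaf 4))) (.leaf 2)))))) (.cut 1 (.leaf 0) (.cut 0 (.cut 1 (.leaf 0) (.leaf 4)) (.cut 1 (.leaf 0) (.leaf 4))))))) (.leaf 5))) (.leaf 2))) (.leaf 2)))))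

theorem check9L : checkAlt 2 (mulAlts (xKnum 9) 16000000 30000 5700 7500 mus9) tree9L (halve Iv.low 0 pairBox) = true := by
  decide +kernel

/-- A subtree of interval 9. -/
def tree9HL : ACut :=
  .cut 0 (.cut 1 (.leaf 0) (.cut 0 (.cut 1 (.cut 0 (.cut 1 (.cut 0 (.cut 1 (.leaf 0) (.leaf 0)) (.cut 1 (.cut 0 (.leaf 0) (.cut 1 (.leaf 0) (.leaf 0))) (.leaf 0))) (.leaf 0)) (.cut 1 (.cut 0 (.cut 1 (.cut 0 (.cut 1 (.leaf 0) (.cut 0 (.cut 1 (.leaf 0) (.leaf 0)) (.cut 1 (.cut 0 (.cut 1 (.leaf 0) (.leaf 0)) (.cut 1 (.leaf 0) (.leaf 0))) (.leaf 0)))) (.cut 1 (.leaf 0) (.cut 0 (.cut 1 (.leaf 0) (.leaf 0)) (.cut 1 (.leaf 0) (.leaf 0))))) (.leaf 0)) (.cut 1 (.cut 0 (.cut 1 (.leaf 0) (.leaf 0)) (.leaf 0)) (.leaf 0))) (.leaf 0))) (.leaf 7)) (.cut 1 (.cut 0 (.cut 1 (.leaf 0) (.leaf 0)) (.cut 1 (.leaf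 0) (.leaf 0))) (.cut 0 (.leaf 8) (.cut 1 (.leaf 0) (.cut 0 (.leaf 3) (.leaf 0))))))) (.cut 1 (.leaf 0) (.cut 0 (.cut 1 (.cut 0 (.cut 1 (.cut 0 (.cut 1 (.leaf 0) (.cut 0 (.leaf 0) (.cut 1 (.leaf 0) (.cut 0 (.leaf 0) (.cut 1 (.cut 0 (.leaf 0) (.cut 1 (.leaf 0) (.leaf 0))) (.leaf 0)))))) (.cut 1 (.leaf 0) (.cut 0 (.cut 1 (.leaf 0) (.cut 0 (.cut 1 (.cut 0 (.cut 1 (.leaf 0) (.leaf 0)) (.leaf 0)) (.leaf 0)) (.leaf 0))) (.leaf 0)))) (.cut 0 (.leaf 0) (.cut 1 (.leaf 0) (.leaf 4)))) (.leaf 2)) (.cut 0 (.cut 1 (.cut 0 (.leaf 0) (.leaf 5)) (.cut 0 (.cut 1 (.leaf 0) (.cut 0 (.leaf 0) (.cut 1 (.cut 0 (.leaf 0) (.cut 1 (.leaf 0) (.cut 0 (.leaf 0) (.cut 1 (.leaf 4) (.cut 0 (.leaf 0) (.leaf 4)))))) (.cut 0 (.leaf 0) (.cut 1 (.cut 0 (.leaf 0) (.cut 1 (.cut 0 (.cut 1 (.leaf 0) (.cut 0 (.leaf 0) (.cut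 1 (.leaf 0) (.cut 0 (.leaf 0) (.leaf 4))))) (.leaf 4)) (.cut 0 (.cut 1 (.cut 0 (.leaf 0) (.cut 1 (.cut 0 (.leaf 0) (.leaf 4)) (.cut 0 (.leaf 0) (.leaf 4)))) (.cut 0 (.leaf 0) (.leaf 4))) (.leaf 2)))) (.cut 0 (.leaf 0) (.leaf 4))))))) (.leaf 5))) (.leaf 2))) (.leaf 2)))

theorem check9HL : checkAlt 2 (mulAlts (xKnum 9) 16000000 30000 5700 7500 mus9) tree9HL (halve Iv.low 1 (halve Iv.high 0 pairBox)) = true := by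
  decide +kernel

/-- A subtree of interval 9. -/
def tree9HH : ACut :=
  .cut 0 (.cut 1 (.cut 0 (.cut 1 (.leaf 3) (.cut 0 (.cut 1 (.leaf 3) (.cut 0 (.cut 1 (.leaf 3) (.cut 0 (.cut 1 (.leaf 8) (.leaf 0)) (.cut 1 (.cut 0 (.leaf 8) (.cut 1 (.cut 0 (.cut 1 (.leaf 3) (.cut 0 (.leaf 8) (.cut 1 (.leaf 3) (.leaf 7)))) (.cut 1 (.leaf 3) (.cut 0 (.cut 1 (.leaf 3) (.leaf 7)) (.cut 1 (.leaf 3) (.leaf 7))))) (.leaf 0))) (.leaf 0)))) (.cut 1 (.leaf 10) (.cut 0 (.cut 1 (.cut 0 (.cut 1 (.cut 0 (.cut 1 (.leaf 3) (.cut 0 (.cut 1 (.cut 0 (.cut 1 (.leaf 3) (.cut 0 (.leaf 9) (.cut 1 (.leaf 3) (.leaf 8)))) (.cut 1 (.leaf 3) (.cut 0 (.cut 1 (.leaf 3) (.leaf 8)) (.cut 1 (.leaf 3) (.leaf 8))))) (.leaf 0)) (.cut 1 (.cut 0 (.cut 1 (.leaf 3) (.cut 0 (.cut 1 (.leaf 3) (.leaf 8)) (.cut 1 (.leaf 9) (.leaf 0))))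 (.cut 1 (.leaf 3) (.cut 0 (.cut 1 (.cut 0 (.cut 1 (.leaf 3) (.leaf 8)) (.cut 1 (.leaf 3) (.leaf 8))) (.leaf 0)) (.cut 1 (.cut 0 (.cut 1 (.leaf 3) (.leaf 0)) (.cut 1 (.leaf 9) (.leaf 0))) (.leaf 0))))) (.leaf 0)))) (.cut 1 (.leaf 3) (.cut 0 (.cut 1 (.cut 0 (.cut 1 (.leaf 9) (.leaf 8)) (.cut 1 (.leaf 9) (.leaf 0))) (.leaf 0)) (.cut 1 (.cut 0 (.cut 1 (.leaf 9) (.leaf 0)) (.leaf 8)) (.leaf 0))))) (.leaf 0)) (.cut 1 (.cut 0 (.cut 1 (.leaf 9) (.leaf 7)) (.cut 1 (.leaf 9) (.leaf 0))) (.leaf 0))) (.leaf 0)) (.leaf 8))))) (.cut 1 (.leaf 10) (.cut 0 (.cut 1 (.leaf 10) (.leaf 0)) (.leaf 8))))) (.cut 1 (.cut 0 (.leaf 10) (.cut 1 (.cut 0 (.leaf 10) (.cut 1 (.cut 0 (.cut 1 (.leaf 8) (.cut 0 (.cut 1 (.leaf 8) (.cut 0 (.leaf 3) (.cut 1 (.cut 0 (.leaf 3) (.leaf 7)) (.cut 0 (.leaf 3) (.leaf 7)))))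 (.leaf 0))) (.leaf 0)) (.cut 0 (.cut 1 (.cut 0 (.cut 1 (.cut 0 (.leaf 3) (.cut 1 (.cut 0 (.cut 1 (.cut 0 (.leaf 3) (.cut 1 (.cut 0 (.leaf 3) (.leaf 8)) (.cut 0 (.leaf 3) (.leaf 8)))) (.cut 0 (.leaf 3) (.cut 1 (.cut 0 (.leaf 9) (.leaf 8)) (.cut 0 (.cut 1 (.cut 0 (.leaf 3) (.leaf 8)) (.cut 0 (.leaf 9) (.leaf 0))) (.leaf 0))))) (.leaf 0)) (.cut 0 (.cut 1 (.cut 0 (.leaf 9) (.leaf 8)) (.cut 0 (.leaf 9) (.leaf 0))) (.leaf 0)))) (.cut 0 (.leaf 9) (.leaf 7))) (.leaf 0)) (.leaf 8)) (.leaf 0)))) (.cut 0 (.leaf 10) (.leaf 0)))) (.leaf 10))) (.cut 0 (.cut 1 (.cut 0 (.cut 1 (.cut 0 (.cut 1 (.cut 0 (.cut 1 (.leaf 0) (.cut 0 (.cut 1 (.leaf 0) (.leaf 4)) (.cut 1 (.leaf 0) (.leaf 4)))) (.cut 1 (.leaf 0) (.leaf 4))) (.leaf 2)) (.cut 1 (.leaf 0) (.leaf 2))) (.leaf 2)) (.leaf 6)) (.leaf 2)) (.leaf 2)))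 (.cut 1 (.cut 0 (.cut 1 (.cut 0 (.cut 1 (.cut 0 (.cut 1 (.cut 0 (.leaf 0) (.cut 1 (.cut 0 (.leaf 0) (.leaf 4)) (.leaf 4))) (.leaf 0)) (.leaf 2)) (.leaf 4)) (.leaf 2)) (.leaf 2)) (.leaf 2)) (.leaf 2))

theorem check9HH : checkAlt 2 (mulAlts (xKnum 9) 16000000 30000 5700 7500 mus9) tree9HH (halve Iv.high 1 (halve Iv.high 0 pairBox)) = true := by
  decide +kernel

/-- A subtree of interval 9. -/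
def tree9H : ACut :=
  .cut 1 tree9HL tree9HH

theorem check9H : checkAlt 2 (mulAlts (xKnum 9) 16000000 30000 5700 7500 mus9) tree9H (halve Iv.high 0 pairBox) = true := by
  simp only [tree9H, checkAlt, check9HL, check9HH, Bool.and_self]

/-- A subtree of interval 9. -/
def tree9 : ACut :=
  .cut 0 tree9L tree9H

theorem check9 : checkAlt 2 (mulAlts (xKnum 9) 16000000 30000 5700 7500 mus9) tree9 pairBox = true := by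
  simp only [tree9, checkAlt, check9L, check9H, Bool.and_self]

/-- Multipliers of interval 10. -/
def mus10 : List (Fin 3 × ℕ) := [(1, 1), (2, 1), (2, 2), (2, 16)]

/-- A subtree of interval 10. -/
def tree10LL : ACut :=
  .cut 0 (.cut 1 (.cut 0 (.cut 1 (.cut 0 (.cut 1 (.cut 0 (.cut 1 (.cut 0 (.cut 1 (.cut 0 (.cut 1 (.cut 0 (.cut 1 (.leaf 0) (.leaf 0)) (.leaf 0)) (.leaf 0)) (.leaf 0)) (.leaf 0)) (.leaf 0)) (.leaf 0)) (.leaf 0)) (.leaf 0)) (.leaf 0)) (.leaf 0)) (.leaf 0)) (.leaf 0)) (.cut 1 (.leaf 0) (.cut 0 (.cut 1 (.cut 0 (.cut 1 (.leaf 0) (.leaf 0)) (.cut 1 (.leaf 0) (.cut 0 (.cut 1 (.leaf 0) (.leaf 0)) (.leaf 0)))) (.cut 0 (.cut 1 (.leaf 0) (.cut 0 (.cut 1 (.cut 0 (.leaf 0) (.leaf 0)) (.cut 0 (.leaf 0) (.leaf 0))) (.leaf 0))) (.leaf 0))) (.cut 1 (.cut 0 (.cut 1 (.leaf 0) (.leaf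 0)) (.cut 1 (.cut 0 (.cut 1 (.cut 0 (.leaf 0) (.cut 1 (.leaf 0) (.leaf 0))) (.leaf 0)) (.cut 1 (.cut 0 (.cut 1 (.leaf 0) (.leaf 0)) (.leaf 0)) (.leaf 0))) (.leaf 0))) (.leaf 0))))

theorem check10LL : checkAlt 2 (mulAlts (xKnum 10) 16000000 30000 7500 10000 mus10) tree10LL (halve Iv.low 1 (halve Iv.low 0 pairBox)) = true := by
  decide +kernel

/-- A subtree of interval 10. -/
def tree10LHL : ACut :=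
  .cut 1 (.leaf 0) (.leaf 4)

theorem check10LHL : checkAlt 2 (mulAlts (xKnum 10) 16000000 30000 7500 10000 mus10) tree10LHL (halve Iv.low 0 (halve Iv.high 1 (halve Iv.low 0 pairBox))) = true := by
  decide +kernel

/-- A subtree of interval 10. -/
def tree10LHHL : ACut :=
  .cut 0 (.cut 1 (.cut 0 (.leaf 0) (.leaf 0)) (.leaf 0)) (.leaf 0)

theorem check10LHHL : checkAlt 2 (mulAlts (xKnum 10) 16000000 30000 7500 10000 mus10) tree10LHHL (halve Iv.low 1 (halve Iv.high 0 (halve Iv.high 1 (halve Iv.low 0 pairBox)))) = true := by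
  decide +kernel

/-- A subtree of interval 10. -/
def tree10LHHHL : ACut :=
  .cut 1 (.cut 0 (.cut 1 (.leaf 0) (.cut 0 (.leaf 0) (.cut 1 (.cut 0 (.leaf 0) (.cut 1 (.cut 0 (.leaf 0) (.cut 1 (.leaf 0) (.cut 0 (.leaf 0) (.cut 1 (.leaf 0) (.cut 0 (.cut 1 (.leaf 0) (.leaf 4)) (.cut 1 (.leaf 0) (.leaf 4))))))) (.leaf 2))) (.leaf 0)))) (.cut 1 (.leaf 0) (.cut 0 (.cut 1 (.cut 0 (.cut 1 (.cut 0 (.cut 1 (.leaf 0) (.cut 0 (.cut 1 (.leaf 0) (.cut 0 (.cut 1 (.leaf 0) (.leaf 4)) (.cut 1 (.leaf 0) (.leaf 4)))) (.cut 1 (.leaf 0) (.cut 0 (.cut 1 (.leaf 0) (.leaf 4)) (.cut 1 (.leaf 0) (.leaf 4)))))) (.cut 1 (.leaf 0) (.cut 0 (.cut 1 (.leaf 0) (.cut 0 (.cut 1 (.leaf 0) (.leaf 4)) (.cut 1 (.leaf 0) (.leaf 4)))) (.cut 1 (.leaf 0) (.cut 0 (.cut 1 (.leaf 0) (.cut 0 (.leaf 4) (.cut 1 (.cut 0 (.cut 1 (.leaf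 0) (.leaf 2)) (.cut 1 (.leaf 0) (.leaf 2))) (.leaf 2)))) (.cut 1 (.leaf 0) (.cut 0 (.cut 1 (.cut 0 (.cut 1 (.leaf 0) (.leaf 2)) (.cut 1 (.leaf 0) (.leaf 2))) (.leaf 2)) (.cut 1 (.cut 0 (.cut 1 (.leaf 0) (.leaf 2)) (.cut 1 (.leaf 0) (.leaf 2))) (.leaf 2))))))))) (.leaf 2)) (.cut 1 (.cut 0 (.cut 1 (.leaf 0) (.cut 0 (.cut 1 (.leaf 0) (.cut 0 (.cut 1 (.leaf 0) (.leaf 4)) (.cut 1 (.leaf 0) (.leaf 4)))) (.cut 1 (.leaf 0) (.cut 0 (.cut 1 (.leaf 0) (.leaf 4)) (.cut 1 (.leaf 0) (.leaf 4)))))) (.cut 1 (.leaf 0) (.cut 0 (.cut 1 (.leaf 0) (.cut 0 (.cut 1 (.leaf 0) (.leaf 4)) (.cut 1 (.leaf 0) (.leaf 4)))) (.cut 1 (.leaf 0) (.cut 0 (.cut 1 (.leaf 0) (.leaf 4)) (.cut 1 (.leaf 0) (.leaf 4))))))) (.leaf 2))) (.leaf 0)) (.cut 1 (.cut 0 (.cut 1 (.cut 0 (.cut 1 (.leaf 0) (.cut 0 (.cut 1 (.leaf 0) (.cut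 0 (.cut 1 (.leaf 0) (.leaf 4)) (.cut 1 (.leaf 0) (.leaf 4)))) (.cut 1 (.leaf 0) (.cut 0 (.cut 1 (.leaf 0) (.leaf 4)) (.cut 1 (.leaf 0) (.leaf 4)))))) (.cut 1 (.leaf 0) (.cut 0 (.cut 1 (.leaf 0) (.cut 0 (.cut 1 (.leaf 0) (.leaf 4)) (.cut 1 (.leaf 0) (.leaf 2)))) (.cut 1 (.leaf 0) (.cut 0 (.cut 1 (.leaf 0) (.leaf 2)) (.cut 1 (.leaf 0) (.leaf 2))))))) (.leaf 2)) (.cut 1 (.cut 0 (.cut 1 (.leaf 0) (.cut 0 (.cut 1 (.leaf 0) (.cut 0 (.cut 1 (.leaf 0) (.leaf 2)) (.cut 1 (.leaf 0) (.leaf 2)))) (.cut 1 (.leaf 0) (.cut 0 (.cut 1 (.leaf 0) (.leaf 2)) (.cut 1 (.leaf 0) (.leaf 2)))))) (.cut 1 (.leaf 0) (.cut 0 (.cut 1 (.leaf 0) (.cut 0 (.cut 1 (.leaf 0) (.leaf 2)) (.cut 1 (.leaf 0) (.leaf 2)))) (.cut 1 (.leaf 0) (.cut 0 (.cut 1 (.leaf 0) (.leaf 2)) (.cut 1 (.leaf 0) (.leaf 2))))))) (.leaf 2)))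 (.leaf 0))))) (.leaf 0)

theorem check10LHHHL : checkAlt 2 (mulAlts (xKnum 10) 16000000 30000 7500 10000 mus10) tree10LHHHL (halve Iv.low 0 (halve Iv.high 1 (halve Iv.high 0 (halve Iv.high 1 (halve Iv.low 0 pairBox))))) = true := by
  decide +kernel

/-- A subtree of interval 10. -/
def tree10LHHHH : ACut :=
  .cut 1 (.cut 0 (.cut 1 (.leaf 0) (.cut 0 (.cut 1 (.cut 0 (.cut 1 (.cut 0 (.cut 1 (.leaf 0) (.cut 0 (.cut 1 (.leaf 0) (.cut 0 (.cut 1 (.leaf 0) (.leaf 2)) (.cut 1 (.cut 0 (.cut 1 (.leaf 0) (.leaf 4)) (.cut 1 (.leaf 0) (.leaf 4))) (.leaf 2)))) (.cut 1 (.leaf 0) (.cut 0 (.cut 1 (.cut 0 (.cut 1 (.leaf 0) (.leaf 4)) (.cut 1 (.leaf 0) (.leaf 4))) (.leaf 2)) (.cut 1 (.cut 0 (.cut 1 (.leaf 0) (.leaf 4)) (.cut 1 (.leaf 0) (.leaf 4))) (.leaf 2)))))) (.cut 1 (.leaf 0) (.cut 0 (.cut 1 (.leaf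 0) (.cut 0 (.cut 1 (.cut 0 (.cut 1 (.leaf 0) (.leaf 2)) (.cut 1 (.leaf 0) (.leaf 2))) (.leaf 2)) (.cut 1 (.cut 0 (.cut 1 (.leaf 0) (.leaf 2)) (.cut 1 (.leaf 0) (.leaf 2))) (.leaf 2)))) (.cut 1 (.leaf 0) (.cut 0 (.cut 1 (.cut 0 (.cut 1 (.leaf 0) (.leaf 2)) (.cut 1 (.leaf 0) (.leaf 2))) (.leaf 2)) (.cut 1 (.cut 0 (.cut 1 (.leaf 0) (.leaf 2)) (.cut 1 (.leaf 0) (.leaf 2))) (.leaf 2))))))) (.leaf 2)) (.cut 1 (.cut 0 (.cut 1 (.leaf 0) (.cut 0 (.cut 1 (.leaf 0) (.cut 0 (.cut 1 (.cut 0 (.cut 1 (.leaf 0) (.leaf 2)) (.cut 1 (.leaf 0) (.leaf 2))) (.leaf 2)) (.cut 1 (.cut 0 (.cut 1 (.leaf 0) (.leaf 2)) (.cut 1 (.leaf 0) (.leaf 2))) (.leaf 2)))) (.cut 1 (.leaf 0) (.cut 0 (.cut 1 (.cut 0 (.cut 1 (.leaf 0) (.leaf 2)) (.cut 1 (.leaf 0) (.leaf 2))) (.leaf 2)) (.leaf 0))))) (.cut 1 (.leaf 0) (.leaf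 0))) (.leaf 2))) (.leaf 0)) (.cut 1 (.cut 0 (.cut 1 (.leaf 0) (.leaf 0)) (.leaf 0)) (.leaf 0)))) (.cut 1 (.cut 0 (.leaf 0) (.cut 1 (.cut 0 (.leaf 0) (.cut 1 (.leaf 3) (.cut 0 (.leaf 0) (.cut 1 (.leaf 5) (.leaf 0))))) (.leaf 0))) (.leaf 0))) (.leaf 0)

theorem check10LHHHH : checkAlt 2 (mulAlts (xKnum 10) 16000000 30000 7500 10000 mus10) tree10LHHHH (halve Iv.high 0 (halve Iv.high 1 (halve Iv.high 0 (halve Iv.high 1 (halve Iv.low 0 pairBox))))) = true := by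
  decide +kernel

/-- A subtree of interval 10. -/
def tree10LHHH : ACut :=
  .cut 0 tree10LHHHL tree10LHHHH

theorem check10LHHH : checkAlt 2 (mulAlts (xKnum 10) 16000000 30000 7500 10000 mus10) tree10LHHH (halve Iv.high 1 (halve Iv.high 0 (halve Iv.high 1 (halve Iv.low 0 pairBox)))) = true := by
  simp only [tree10LHHH, checkAlt, check10LHHHL, check10LHHHH, Bool.and_self]

/-- A subtree of interval 10. -/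
def tree10LHH : ACut :=
  .cut 1 tree10LHHL tree10LHHH

theorem check10LHH : checkAlt 2 (mulAlts (xKnum 10) 16000000 30000 7500 10000 mus10) tree10LHH (halve Iv.high 0 (halve Iv.high 1 (halve Iv.low 0 pairBox))) = true := by
  simp only [tree10LHH, checkAlt, check10LHHL, check10LHHH, Bool.and_self]

/-- A subtree of interval 10. -/
def tree10LH : ACut :=
  .cut 0 tree10LHL tree10LHH

theorem check10LH : checkAlt 2 (mulAlts (xKnum 10) 16000000 30000 7500 10000 mus10) tree10LH (halve Iv.high 1 (halve Iv.low 0 pairBox)) = true := by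
  simp only [tree10LH, checkAlt, check10LHL, check10LHH, Bool.and_self]

/-- A subtree of interval 10. -/
def tree10L : ACut :=
  .cut 1 tree10LL tree10LH

theorem check10L : checkAlt 2 (mulAlts (xKnum 10) 16000000 30000 7500 10000 mus10) tree10L (halve Iv.low 0 pairBox) = true := by
  simp only [tree10L, checkAlt, check10LL, check10LH, Bool.and_self]

/-- A subtree of interval 10. -/
def tree10H : ACut :=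
  .cut 1 (.cut 0 (.cut 1 (.leaf 0) (.cut 0 (.cut 1 (.cut 0 (.cut 1 (.leaf 0) (.leaf 0)) (.leaf 0)) (.leaf 0)) (.leaf 0))) (.cut 1 (.leaf 4) (.cut 0 (.cut 1 (.cut 0 (.leaf 0) (.cut 1 (.cut 0 (.cut 1 (.leaf 0) (.cut 0 (.cut 1 (.leaf 0) (.cut 0 (.leaf 0) (.cut 1 (.leaf 0) (.cut 0 (.leaf 0) (.cut 1 (.leaf 0) (.cut 0 (.leaf 0) (.leaf 4))))))) (.leaf 2))) (.leaf 0)) (.cut 0 (.cut 1 (.cut 0 (.cut 1 (.cut 0 (.leaf 0) (.cut 1 (.cut 0 (.leaf 0) (.cut 1 (.cut 0 (.leaf 0) (.leaf 4)) (.cut 0 (.leaf 0) (.leaf 4)))) (.cut 0 (.leaf 0) (.cut 1 (.cut 0 (.leaf 0) (.leaf 4)) (.cut 0 (.leaf 0) (.cut 1 (.cut 0 (.cut 1 (.leaf 4) (.cut 0 (.leaf 0) (.leaf 2))) (.leaf 2)) (.cut 0 (.cut 1 (.cut 0 (.leaf 0) (.leaf 2)) (.cut 0 (.leaf 0) (.leaf 2))) (.leaf 2)))))))) (.cut 0 (.leaf 0) (.cut 1 (.cut 0 (.leaf 0)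 (.cut 1 (.cut 0 (.leaf 0) (.leaf 4)) (.cut 0 (.leaf 0) (.leaf 4)))) (.cut 0 (.leaf 0) (.cut 1 (.cut 0 (.leaf 0) (.leaf 4)) (.cut 0 (.leaf 0) (.leaf 4))))))) (.leaf 2)) (.cut 0 (.cut 1 (.cut 0 (.leaf 0) (.cut 1 (.cut 0 (.leaf 0) (.cut 1 (.cut 0 (.leaf 0) (.leaf 4)) (.cut 0 (.leaf 0) (.leaf 4)))) (.cut 0 (.leaf 0) (.cut 1 (.cut 0 (.leaf 0) (.leaf 4)) (.cut 0 (.leaf 0) (.leaf 2)))))) (.cut 0 (.leaf 0) (.cut 1 (.cut 0 (.leaf 0) (.cut 1 (.cut 0 (.leaf 0) (.leaf 2)) (.cut 0 (.leaf 0) (.leaf 2)))) (.cut 0 (.leaf 0) (.cut 1 (.cut 0 (.leaf 0) (.leaf 2)) (.cut 0 (.leaf 0) (.leaf 2))))))) (.leaf 2))) (.leaf 0)))) (.cut 0 (.cut 1 (.leaf 0) (.cut 0 (.cut 1 (.leaf 0) (.cut 0 (.leaf 3) (.cut 1 (.leaf 0) (.cut 0 (.leaf 5) (.leaf 0))))) (.leaf 0))) (.cut 1 (.cut 0 (.cut 1 (.cut 0 (.cut 1 (.cut 0 (.leaf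 0) (.cut 1 (.cut 0 (.leaf 0) (.cut 1 (.cut 0 (.cut 1 (.leaf 0) (.cut 0 (.leaf 0) (.leaf 4))) (.leaf 2)) (.cut 0 (.cut 1 (.cut 0 (.leaf 0) (.leaf 4)) (.cut 0 (.leaf 0) (.leaf 4))) (.leaf 2)))) (.cut 0 (.leaf 0) (.cut 1 (.cut 0 (.cut 1 (.cut 0 (.leaf 0) (.leaf 2)) (.cut 0 (.leaf 0) (.leaf 2))) (.leaf 2)) (.cut 0 (.cut 1 (.cut 0 (.leaf 0) (.leaf 2)) (.cut 0 (.leaf 0) (.leaf 2))) (.leaf 2)))))) (.cut 0 (.leaf 0) (.cut 1 (.cut 0 (.leaf 0) (.cut 1 (.cut 0 (.cut 1 (.cut 0 (.leaf 0) (.leaf 2)) (.cut 0 (.leaf 0) (.leaf 2))) (.leaf 2)) (.cut 0 (.cut 1 (.cut 0 (.leaf 0) (.leaf 2)) (.leaf 0)) (.leaf 2)))) (.leaf 0)))) (.leaf 2)) (.cut 0 (.leaf 0) (.leaf 0))) (.leaf 0)) (.leaf 0)))) (.leaf 0)))) (.cut 0 (.cut 1 (.leaf 7) (.cut 0 (.cut 1 (.cut 0 (.cut 1 (.cut 0 (.cut 1 (.cut 0 (.cut 1 (.leaf 3)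 (.cut 0 (.cut 1 (.cut 0 (.cut 1 (.cut 0 (.cut 1 (.leaf 3) (.leaf 5)) (.cut 1 (.leaf 3) (.leaf 5))) (.leaf 0)) (.leaf 6)) (.leaf 0)) (.leaf 6))) (.leaf 6)) (.leaf 0)) (.leaf 6)) (.leaf 0)) (.leaf 0)) (.leaf 0)) (.leaf 0))) (.cut 1 (.cut 0 (.cut 1 (.cut 0 (.cut 1 (.cut 0 (.cut 1 (.cut 0 (.leaf 6) (.cut 1 (.cut 0 (.cut 1 (.cut 0 (.cut 1 (.cut 0 (.leaf 3) (.cut 1 (.leaf 5) (.leaf 5))) (.leaf 6)) (.leaf 0)) (.leaf 6)) (.leaf 0)) (.leaf 0))) (.leaf 6)) (.leaf 0)) (.leaf 0)) (.leaf 0)) (.leaf 0)) (.leaf 0)) (.leaf 0)))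

theorem check10H : checkAlt 2 (mulAlts (xKnum 10) 16000000 30000 7500 10000 mus10) tree10H (halve Iv.high 0 pairBox) = true := by
  decide +kernel

/-- A subtree of interval 10. -/
def tree10 : ACut :=
  .cut 0 tree10L tree10H

theorem check10 : checkAlt 2 (mulAlts (xKnum 10) 16000000 30000 7500 10000 mus10) tree10 pairBox = true := by
  simp only [tree10, checkAlt, check10L, check10H, Bool.and_self]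

end Vale.Agent.P154.Ferro4.Maj
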