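import Vale.Agent.P154.Ferro4.Majorant
import Vale.Agent.P154.Ferro4.XData

/-!
P154, four states: kernel certificates of the pair inequalities of intervals 11, 12.
Large trees are checked subtree by subtree.
-/

namespace Vale.Agent.P154.Ferro4.Maj

open PolyCheck

/-- Multipliers of interval 11. -/
def mus11 : List (Fin 3 × ℕ) := [(1, 1), (1, 2), (1, 4), (2, 4), (2, 8), (2, 16)]

/-- A subtree of interval 11. -/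
def tree11L : ACut :=
  .cut 1 (.cut 0 (.cut 1 (.leaf 0) (.cut 0 (.leaf 0) (.cut 1 (.leaf 0) (.cut 0 (.leaf 0) (.cut 1 (.leaf 0) (.cut 0 (.leaf 0) (.leaf 0))))))) (.cut 1 (.cut 0 (.leaf 0) (.cut 1 (.leaf 0) (.cut 0 (.leaf 0) (.cut 1 (.leaf 0) (.cut 0 (.leaf 0) (.cut 1 (.leaf 0) (.leaf 0))))))) (.cut 0 (.cut 1 (.cut 0 (.cut 1 (.cut 0 (.leaf 0) (.cut 1 (.leaf 0) (.cut 0 (.leaf 0) (.cut 1 (.leaf 0) (.leaf 0))))) (.cut 0 (.leaf 0) (.leaf 0))) (.cut 1 (.cut 0 (.cut 1 (.leaf 0) (.leaf 0)) (.leaf 0)) (.leaf 0))) (.leaf 0)) (.cut 1 (.leaf 0) (.leaf 0))))) (.cut 0 (.cut 1 (.cut 0 (.leaf 0) (.cut 1 (.cut 0 (.leaf 0) (.cut 1 (.cut 0 (.leaf 0) (.cut 1 (.cut 0 (.cut 1 (.leaf 0) (.cut 0 (.leaf 0) (.leaf 0))) (.leaf 0)) (.cut 0 (.cut 1 (.cut 0 (.leaf 0) (.leaf 0)) (.leaf 0)) (.leaf 0)))) (.leaf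 0))) (.leaf 0))) (.cut 0 (.cut 1 (.leaf 0) (.leaf 2)) (.cut 1 (.leaf 5) (.leaf 2)))) (.cut 1 (.leaf 0) (.cut 0 (.cut 1 (.cut 0 (.cut 1 (.leaf 0) (.cut 0 (.cut 1 (.leaf 0) (.cut 0 (.leaf 6) (.cut 1 (.leaf 6) (.leaf 2)))) (.cut 1 (.leaf 0) (.cut 0 (.cut 1 (.cut 0 (.leaf 6) (.cut 1 (.leaf 4) (.leaf 2))) (.leaf 2)) (.cut 1 (.cut 0 (.cut 1 (.cut 0 (.cut 1 (.leaf 0) (.cut 0 (.leaf 5) (.cut 1 (.leaf 0) (.cut 0 (.leaf 6) (.cut 1 (.leaf 0) (.leaf 6)))))) (.cut 1 (.leaf 0) (.cut 0 (.cut 1 (.leaf 0) (.cut 0 (.cut 1 (.leaf 0) (.leaf 6)) (.cut 1 (.leaf 0) (.cut 0 (.leaf 6) (.cut 1 (.leaf 0) (.leaf 6)))))) (.cut 1 (.leaf 0) (.cut 0 (.cut 1 (.leaf 0) (.cut 0 (.cut 1 (.leaf 0) (.leaf 6)) (.cut 1 (.leaf 0) (.leaf 6)))) (.cut 1 (.leaf 0) (.cut 0 (.cut 1 (.leaf 0) (.leaf 6)) (.cut 1 (.leaf 0) (.leaf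 6))))))))) (.leaf 2)) (.cut 1 (.cut 0 (.cut 1 (.leaf 0) (.cut 0 (.cut 1 (.leaf 0) (.cut 0 (.cut 1 (.leaf 0) (.cut 0 (.cut 1 (.leaf 0) (.leaf 6)) (.cut 1 (.leaf 0) (.leaf 6)))) (.cut 1 (.leaf 0) (.cut 0 (.cut 1 (.leaf 0) (.leaf 6)) (.cut 1 (.leaf 0) (.leaf 6)))))) (.cut 1 (.leaf 0) (.cut 0 (.cut 1 (.leaf 0) (.cut 0 (.cut 1 (.leaf 0) (.leaf 6)) (.cut 1 (.leaf 0) (.leaf 6)))) (.cut 1 (.leaf 0) (.leaf 6)))))) (.cut 1 (.leaf 0) (.cut 0 (.cut 1 (.leaf 0) (.cut 0 (.cut 1 (.leaf 0) (.leaf 6)) (.cut 1 (.leaf 0) (.leaf 6)))) (.cut 1 (.leaf 0) (.leaf 6))))) (.leaf 2))) (.leaf 2)))))) (.cut 1 (.leaf 0) (.cut 0 (.cut 1 (.leaf 0) (.cut 0 (.cut 1 (.cut 0 (.cut 1 (.leaf 4) (.leaf 2)) (.leaf 6)) (.leaf 2)) (.leaf 6))) (.leaf 5)))) (.leaf 2)) (.leaf 0))))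

theorem check11L : checkAlt 2 (mulAlts (xKnum 11) 16000000 30000 10000 12000 mus11) tree11L (halve Iv.low 0 pairBox) = true := by
  decide +kernel

/-- A subtree of interval 11. -/
def tree11H : ACut :=
  .cut 1 (.cut 0 (.cut 1 (.cut 0 (.cut 1 (.leaf 0) (.cut 0 (.cut 1 (.leaf 0) (.cut 0 (.cut 1 (.leaf 0) (.cut 0 (.cut 1 (.leaf 0) (.leaf 0)) (.cut 1 (.cut 0 (.cut 1 (.leaf 0) (.leaf 0)) (.cut 1 (.leaf 0) (.leaf 0))) (.leaf 0)))) (.cut 1 (.leaf 0) (.cut 0 (.cut 1 (.cut 0 (.cut 1 (.leaf 0) (.leaf 0)) (.leaf 0)) (.leaf 0)) (.leaf 0))))) (.cut 1 (.leaf 0) (.leaf 0)))) (.leaf 0)) (.leaf 0)) (.cut 1 (.cut 0 (.leaf 5) (.leaf 2)) (.cut 0 (.cut 1 (.cut 0 (.leaf 0) (.cut 1 (.cut 0 (.leaf 0) (.cut 1 (.cut 0 (.leaf 6) (.leaf 2)) (.cut 0 (.cut 1 (.cut 0 (.leaf 4) (.leaf 2)) (.cut 0 (.cut 1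 (.cut 0 (.leaf 0) (.cut 1 (.cut 0 (.leaf 0) (.cut 1 (.leaf 5) (.cut 0 (.leaf 0) (.leaf 6)))) (.cut 0 (.leaf 0) (.cut 1 (.cut 0 (.leaf 0) (.cut 1 (.leaf 6) (.cut 0 (.leaf 0) (.leaf 6)))) (.cut 0 (.leaf 0) (.cut 1 (.cut 0 (.leaf 0) (.leaf 6)) (.cut 0 (.leaf 0) (.leaf 6)))))))) (.cut 0 (.leaf 0) (.cut 1 (.cut 0 (.leaf 0) (.cut 1 (.cut 0 (.leaf 0) (.cut 1 (.cut 0 (.leaf 0) (.leaf 6)) (.cut 0 (.leaf 0) (.leaf 6)))) (.cut 0 (.leaf 0) (.cut 1 (.cut 0 (.leaf 0) (.leaf 6)) (.leaf 6))))) (.cut 0 (.leaf 0) (.cut 1 (.cut 0 (.leaf 0) (.leaf 6)) (.leaf 6)))))) (.leaf 2))) (.leaf 2)))) (.cut 0 (.leaf 0) (.cut 1 (.cut 0 (.cut 1 (.cut 0 (.leaf 4) (.leaf 2)) (.leaf 5)) (.leaf 2)) (.leaf 5))))) (.leaf 0)) (.leaf 2)))) (.cut 0 (.cut 1 (.cut 0 (.leaf 0) (.cut 1 (.leaf 0) (.cut 0 (.cut 1 (.leaf 3)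 (.cut 0 (.leaf 7) (.cut 1 (.leaf 3) (.leaf 9)))) (.cut 1 (.cut 0 (.leaf 3) (.leaf 9)) (.cut 0 (.cut 1 (.cut 0 (.cut 1 (.leaf 3) (.cut 0 (.leaf 9) (.cut 1 (.leaf 3) (.leaf 9)))) (.cut 1 (.cut 0 (.leaf 3) (.leaf 9)) (.cut 0 (.cut 1 (.cut 0 (.cut 1 (.leaf 3) (.cut 0 (.leaf 9) (.cut 1 (.cut 0 (.cut 1 (.leaf 3) (.cut 0 (.leaf 9) (.cut 1 (.leaf 9) (.cut 0 (.leaf 9) (.leaf 0))))) (.cut 1 (.cut 0 (.leaf 9) (.cut 1 (.leaf 9) (.cut 0 (.leaf 9) (.leaf 0)))) (.cut 0 (.cut 1 (.cut 0 (.leaf 9) (.leaf 0)) (.leaf 0)) (.leaf 0)))) (.leaf 8)))) (.cut 1 (.cut 0 (.cut 1 (.leaf 3) (.cut 0 (.cut 1 (.leaf 3) (.cut 0 (.leaf 9) (.cut 1 (.leaf 9) (.cut 0 (.cut 1 (.leaf 9) (.leaf 0)) (.leaf 0))))) (.cut 1 (.cut 0 (.leaf 9) (.cut 1 (.leaf 9) (.cut 0 (.leaf 9) (.leaf 0)))) (.cut 0 (.cut 1 (.cut 0 (.leaf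 9) (.leaf 0)) (.leaf 0)) (.leaf 0))))) (.cut 1 (.leaf 9) (.leaf 8))) (.cut 0 (.cut 1 (.cut 0 (.cut 1 (.cut 0 (.cut 1 (.cut 0 (.cut 1 (.leaf 9) (.leaf 0)) (.leaf 0)) (.leaf 0)) (.leaf 0)) (.leaf 0)) (.leaf 0)) (.leaf 0)) (.leaf 0)))) (.leaf 0)) (.leaf 0)))) (.leaf 9)) (.cut 1 (.leaf 9) (.leaf 0))))))) (.cut 0 (.leaf 0) (.leaf 0))) (.cut 1 (.cut 0 (.cut 1 (.leaf 0) (.leaf 0)) (.leaf 0)) (.leaf 0)))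

theorem check11H : checkAlt 2 (mulAlts (xKnum 11) 16000000 30000 10000 12000 mus11) tree11H (halve Iv.high 0 pairBox) = true := by
  decide +kernel

/-- A subtree of interval 11. -/
def tree11 : ACut :=
  .cut 0 tree11L tree11H

theorem check11 : checkAlt 2 (mulAlts (xKnum 11) 16000000 30000 10000 12000 mus11) tree11 pairBox = true := by
  simp only [tree11, checkAlt, check11L, check11H, Bool.and_self]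

/-- Multipliers of interval 12. -/
def mus12 : List (Fin 3 × ℕ) := [(0, 2000000), (0, 4000000), (1, 4), (1, 8), (1, 16), (1, 33), (1, 66), (1, 133), (2, 1), (2, 4), (2, 8), (2, 16), (2, 33)]

/-- A subtree of interval 12. -/
def tree12LL : ACut :=
  .cut 0 (.cut 1 (.leaf 0) (.cut 0 (.leaf 0) (.cut 1 (.cut 0 (.leaf 0) (.cut 1 (.leaf 0) (.leaf 0))) (.leaf 0)))) (.cut 1 (.cut 0 (.cut 1 (.leaf 0) (.cut 0 (.cut 1 (.leaf 0) (.leaf 0)) (.cut 1 (.leaf 0) (.leaf 0)))) (.cut 1 (.leaf 0) (.leaf 0))) (.cut 0 (.cut 1 (.cut 0 (.cut 1 (.cut 0 (.leaf 0) (.leaf 0)) (.leaf 0)) (.leaf 0)) (.leaf 0)) (.leaf 0)))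

theorem check12LL : checkAlt 2 (mulAlts (xKnum 12) 16000000 30000 12000 15000 mus12) tree12LL (halve Iv.low 1 (halve Iv.low 0 pairBox)) = true := by
  decide +kernel

/-- A subtree of interval 12. -/
def tree12LHL : ACut :=
  .cut 1 (.cut 0 (.cut 1 (.leaf 14) (.leaf 3)) (.cut 1 (.cut 0 (.cut 1 (.cut 0 (.cut 1 (.leaf 0) (.leaf 14)) (.cut 1 (.leaf 0) (.cut 0 (.cut 1 (.cut 0 (.leaf 14) (.cut 1 (.leaf 14) (.leaf 15))) (.leaf 3)) (.cut 1 (.cut 0 (.cut 1 (.leaf 14) (.leaf 3)) (.leaf 15)) (.leaf 3))))) (.leaf 3)) (.cut 1 (.cut 0 (.cut 1 (.leaf 0) (.leaf 3)) (.leaf 14)) (.leaf 3))) (.leaf 3))) (.cut 0 (.cut 1 (.leaf 14) (.leaf 10)) (.cut 1 (.cut 0 (.cut 1 (.leaf 3) (.cut 0 (.leaf 0) (.cut 1 (.leaf 15) (.leaf 0)))) (.cut 1 (.leaf 3) (.cut 0 (.cut 1 (.cut 0 (.cut 1 (.leaf 3) (.leaf 0))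 (.cut 1 (.leaf 3) (.leaf 15))) (.leaf 0)) (.cut 1 (.cut 0 (.cut 1 (.leaf 3) (.cut 0 (.cut 1 (.cut 0 (.leaf 15) (.cut 1 (.leaf 3) (.leaf 14))) (.leaf 0)) (.cut 1 (.cut 0 (.cut 1 (.leaf 3) (.leaf 15)) (.cut 1 (.leaf 3) (.leaf 15))) (.leaf 0)))) (.cut 1 (.leaf 3) (.cut 0 (.cut 1 (.cut 0 (.cut 1 (.leaf 3) (.cut 0 (.cut 1 (.leaf 3) (.leaf 14)) (.cut 1 (.leaf 3) (.leaf 15)))) (.cut 1 (.leaf 3) (.cut 0 (.cut 1 (.leaf 3) (.leaf 15)) (.cut 1 (.leaf 3) (.leaf 15))))) (.leaf 0)) (.cut 1 (.leaf 16) (.leaf 12))))) (.leaf 0))))) (.cut 0 (.cut 1 (.cut 0 (.leaf 9) (.cut 1 (.leaf 7) (.leaf 2))) (.leaf 2)) (.cut 1 (.cut 0 (.cut 1 (.cut 0 (.leaf 8) (.cut 1 (.leaf 6) (.leaf 2))) (.leaf 2)) (.cut 1 (.cut 0 (.cut 1 (.leaf 7) (.leaf 2)) (.cut 1 (.cut 0 (.cut 1 (.leaf 0) (.leaf 8)) (.cut 1 (.leaf 0)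 (.leaf 8))) (.leaf 2))) (.leaf 2))) (.leaf 2)))))

theorem check12LHL : checkAlt 2 (mulAlts (xKnum 12) 16000000 30000 12000 15000 mus12) tree12LHL (halve Iv.low 0 (halve Iv.high 1 (halve Iv.low 0 pairBox))) = true := by
  decide +kernel

/-- A subtree of interval 12. -/
def tree12LHH : ACut :=
  .cut 1 (.leaf 3) (.cut 0 (.cut 1 (.cut 0 (.cut 1 (.leaf 3) (.cut 0 (.cut 1 (.cut 0 (.cut 1 (.leaf 3) (.cut 0 (.cut 1 (.leaf 3) (.leaf 14)) (.cut 1 (.leaf 3) (.leaf 14)))) (.cut 1 (.leaf 3) (.cut 0 (.cut 1 (.leaf 3) (.leaf 13)) (.leaf 15)))) (.leaf 0)) (.cut 1 (.cut 0 (.cut 1 (.leaf 3) (.leaf 15)) (.leaf 16)) (.leaf 0)))) (.cut 1 (.leaf 3) (.cut 0 (.cut 1 (.leaf 15) (.leaf 0)) (.cut 1 (.leaf 3) (.leaf 0))))) (.cut 0 (.cut 1 (.cut 0 (.cut 1 (.cut 0 (.cut 1 (.cut 0 (.cut 1 (.leaf 0) (.leaf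 8)) (.cut 1 (.leaf 0) (.cut 0 (.leaf 8) (.cut 1 (.cut 0 (.cut 1 (.leaf 7) (.leaf 2)) (.cut 1 (.leaf 7) (.leaf 2))) (.leaf 2))))) (.leaf 2)) (.cut 1 (.cut 0 (.cut 1 (.leaf 0) (.cut 0 (.cut 1 (.cut 0 (.cut 1 (.leaf 7) (.leaf 2)) (.cut 1 (.cut 0 (.leaf 7) (.cut 1 (.leaf 7) (.leaf 2))) (.leaf 2))) (.leaf 2)) (.cut 1 (.cut 0 (.cut 1 (.cut 0 (.cut 1 (.leaf 7) (.leaf 2)) (.cut 1 (.leaf 7) (.leaf 2))) (.leaf 2)) (.cut 1 (.cut 0 (.cut 1 (.leaf 7) (.leaf 2)) (.cut 1 (.leaf 7) (.leaf 2))) (.leaf 2))) (.leaf 2)))) (.cut 1 (.leaf 0) (.cut 0 (.cut 1 (.cut 0 (.cut 1 (.cut 0 (.cut 1 (.leaf 7) (.leaf 2)) (.cut 1 (.leaf 7) (.leaf 2))) (.leaf 2)) (.cut 1 (.cut 0 (.cut 1 (.leaf 7) (.leaf 2)) (.cut 1 (.leaf 7) (.leaf 2))) (.leaf 2))) (.leaf 2)) (.cut 1 (.cut 0 (.cut 1 (.cut 0 (.cut 1 (.leaf 7) (.leaf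 2)) (.cut 1 (.leaf 7) (.leaf 2))) (.leaf 2)) (.cut 1 (.cut 0 (.cut 1 (.leaf 6) (.leaf 2)) (.leaf 7)) (.leaf 2))) (.leaf 2))))) (.leaf 2))) (.leaf 2)) (.cut 1 (.cut 0 (.cut 1 (.cut 0 (.cut 1 (.leaf 0) (.cut 0 (.cut 1 (.cut 0 (.cut 1 (.leaf 7) (.leaf 2)) (.cut 1 (.leaf 7) (.leaf 2))) (.leaf 2)) (.leaf 8))) (.cut 1 (.leaf 0) (.leaf 8))) (.leaf 2)) (.cut 1 (.cut 0 (.cut 1 (.leaf 0) (.leaf 8)) (.cut 1 (.leaf 0) (.leaf 8))) (.leaf 2))) (.leaf 2))) (.leaf 2)) (.cut 1 (.cut 0 (.cut 1 (.cut 0 (.cut 1 (.cut 0 (.cut 1 (.leaf 0) (.leaf 8)) (.cut 1 (.leaf 0) (.leaf 8))) (.leaf 2)) (.cut 1 (.leaf 7) (.leaf 2))) (.leaf 2)) (.cut 1 (.cut 0 (.cut 1 (.leaf 7) (.leaf 2)) (.leaf 8)) (.leaf 2))) (.leaf 2)))) (.cut 1 (.cut 0 (.cut 1 (.leaf 3) (.leaf 14)) (.cut 1 (.leaf 3) (.cut 0 (.leaf 13) (.cut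 1 (.leaf 13) (.leaf 0))))) (.cut 0 (.cut 1 (.cut 0 (.cut 1 (.cut 0 (.cut 1 (.leaf 7) (.leaf 2)) (.cut 1 (.leaf 7) (.leaf 2))) (.leaf 2)) (.cut 1 (.leaf 9) (.leaf 2))) (.leaf 2)) (.leaf 11))))

theorem check12LHH : checkAlt 2 (mulAlts (xKnum 12) 16000000 30000 12000 15000 mus12) tree12LHH (halve Iv.high 0 (halve Iv.high 1 (halve Iv.low 0 pairBox))) = true := by
  decide +kernel

/-- A subtree of interval 12. -/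
def tree12LH : ACut :=
  .cut 0 tree12LHL tree12LHH

theorem check12LH : checkAlt 2 (mulAlts (xKnum 12) 16000000 30000 12000 15000 mus12) tree12LH (halve Iv.high 1 (halve Iv.low 0 pairBox)) = true := by
  simp only [tree12LH, checkAlt, check12LHL, check12LHH, Bool.and_self]

/-- A subtree of interval 12. -/
def tree12L : ACut :=
  .cut 1 tree12LL tree12LH

theorem check12L : checkAlt 2 (mulAlts (xKnum 12) 16000000 30000 12000 15000 mus12) tree12L (halve Iv.low 0 pairBox) = true := by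
  simp only [tree12L, checkAlt, check12LL, check12LH, Bool.and_self]

/-- A subtree of interval 12. -/
def tree12HL : ACut :=
  .cut 0 (.cut 1 (.cut 0 (.cut 1 (.leaf 14) (.cut 0 (.cut 1 (.cut 0 (.leaf 0) (.cut 1 (.leaf 14) (.cut 0 (.cut 1 (.cut 0 (.leaf 14) (.leaf 15)) (.cut 0 (.leaf 14) (.leaf 3))) (.leaf 3)))) (.cut 0 (.leaf 0) (.leaf 3))) (.leaf 3))) (.leaf 3)) (.leaf 3)) (.cut 1 (.cut 0 (.cut 1 (.leaf 14) (.cut 0 (.leaf 3) (.cut 1 (.cut 0 (.leaf 15) (.leaf 0)) (.cut 0 (.cut 1 (.cut 0 (.leaf 3) (.leaf 15)) (.cut 0 (.leaf 3) (.cut 1 (.cut 0 (.cut 1 (.cut 0 (.leaf 3) (.leaf 14)) (.cut 0 (.leaf 3) (.leaf 15))) (.leaf 0)) (.cut 0 (.cut 1 (.cut 0 (.leaf 3) (.cut 1 (.cut 0 (.leaf 3) (.leaf 15)) (.cut 0 (.leaf 3) (.leaf 15)))) (.leaf 16)) (.leaf 12))))) (.leaf 0))))) (.cut 1 (.leaf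 10) (.cut 0 (.cut 1 (.cut 0 (.leaf 7) (.leaf 2)) (.cut 0 (.cut 1 (.cut 0 (.leaf 6) (.leaf 2)) (.cut 0 (.cut 1 (.leaf 7) (.cut 0 (.leaf 0) (.leaf 8))) (.leaf 2))) (.leaf 2))) (.leaf 2)))) (.cut 0 (.cut 1 (.cut 0 (.leaf 3) (.cut 1 (.cut 0 (.cut 1 (.cut 0 (.leaf 3) (.cut 1 (.cut 0 (.leaf 3) (.leaf 14)) (.cut 0 (.leaf 3) (.leaf 13)))) (.cut 0 (.leaf 3) (.leaf 15))) (.leaf 0)) (.cut 0 (.leaf 15) (.leaf 0)))) (.cut 0 (.leaf 3) (.cut 1 (.leaf 14) (.cut 0 (.leaf 13) (.leaf 0))))) (.cut 1 (.cut 0 (.cut 1 (.cut 0 (.cut 1 (.cut 0 (.cut 1 (.cut 0 (.leaf 0) (.cut 1 (.leaf 8) (.cut 0 (.cut 1 (.leaf 8) (.cut 0 (.leaf 7) (.leaf 2))) (.leaf 2)))) (.cut 0 (.leaf 0) (.cut 1 (.cut 0 (.cut 1 (.cut 0 (.cut 1 (.leaf 7) (.cut 0 (.leaf 7) (.leaf 2))) (.leaf 2)) (.cut 0 (.cut 1 (.cut 0 (.leaf 7) (.leaf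 2)) (.cut 0 (.leaf 7) (.leaf 2))) (.leaf 2))) (.leaf 2)) (.cut 0 (.cut 1 (.cut 0 (.cut 1 (.cut 0 (.leaf 7) (.leaf 2)) (.cut 0 (.leaf 7) (.leaf 2))) (.leaf 2)) (.cut 0 (.cut 1 (.cut 0 (.leaf 7) (.leaf 2)) (.cut 0 (.leaf 6) (.leaf 2))) (.leaf 2))) (.leaf 2))))) (.leaf 2)) (.cut 0 (.cut 1 (.cut 0 (.leaf 0) (.cut 1 (.cut 0 (.cut 1 (.cut 0 (.leaf 7) (.leaf 2)) (.leaf 8)) (.leaf 2)) (.leaf 8))) (.cut 0 (.leaf 0) (.leaf 8))) (.leaf 2))) (.leaf 2)) (.cut 0 (.cut 1 (.cut 0 (.cut 1 (.cut 0 (.leaf 0) (.leaf 8)) (.leaf 7)) (.leaf 2)) (.cut 0 (.leaf 7) (.leaf 2))) (.leaf 2))) (.leaf 2)) (.cut 0 (.cut 1 (.cut 0 (.cut 1 (.cut 0 (.leaf 7) (.leaf 2)) (.leaf 9)) (.leaf 2)) (.leaf 10)) (.leaf 2)))))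

theorem check12HL : checkAlt 2 (mulAlts (xKnum 12) 16000000 30000 12000 15000 mus12) tree12HL (halve Iv.low 1 (halve Iv.high 0 pairBox)) = true := by
  decide +kernel

/-- A subtree of interval 12. -/
def tree12HHL : ACut :=
  .cut 1 (.cut 0 (.leaf 3) (.cut 1 (.leaf 3) (.cut 0 (.leaf 3) (.cut 1 (.leaf 3) (.cut 0 (.cut 1 (.leaf 3) (.cut 0 (.cut 1 (.leaf 3) (.leaf 1)) (.leaf 1))) (.cut 1 (.cut 0 (.cut 1 (.leaf 3) (.leaf 1)) (.leaf 1)) (.leaf 1))))))) (.cut 0 (.cut 1 (.cut 0 (.cut 1 (.leaf 3) (.cut 0 (.cut 1 (.leaf 13) (.leaf 4)) (.cut 1 (.leaf 13) (.leaf 5)))) (.cut 1 (.cut 0 (.cut 1 (.leaf 3) (.cut 0 (.leaf 3) (.cut 1 (.leaf 3) (.cut 0 (.cut 1 (.leaf 3) (.cut 0 (.leaf 16) (.cut 1 (.leaf 3) (.cut 0 (.cut 1 (.leaf 3) (.leaf 15)) (.cut 1 (.leaf 3) (.cut 0 (.cut 1 (.cut 0 (.cut 1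 (.leaf 3) (.leaf 15)) (.cut 1 (.leaf 3) (.cut 0 (.cut 1 (.cut 0 (.leaf 3) (.cut 1 (.leaf 3) (.cut 0 (.leaf 15) (.cut 1 (.leaf 3) (.leaf 14))))) (.leaf 0)) (.cut 1 (.cut 0 (.cut 1 (.leaf 3) (.cut 0 (.cut 1 (.cut 0 (.leaf 3) (.cut 1 (.leaf 3) (.cut 0 (.leaf 3) (.cut 1 (.leaf 3) (.cut 0 (.leaf 3) (.leaf 1)))))) (.cut 0 (.leaf 15) (.leaf 1))) (.cut 1 (.cut 0 (.cut 1 (.leaf 3) (.cut 0 (.cut 1 (.leaf 3) (.leaf 1)) (.leaf 1))) (.cut 1 (.leaf 3) (.leaf 1))) (.leaf 1)))) (.cut 1 (.cut 0 (.leaf 3) (.cut 1 (.leaf 3) (.cut 0 (.leaf 3) (.leaf 1)))) (.leaf 1))) (.leaf 0))))) (.leaf 0)) (.cut 1 (.cut 0 (.cut 1 (.cut 0 (.leaf 3) (.cut 1 (.leaf 3) (.cut 0 (.cut 1 (.leaf 3) (.leaf 1)) (.cut 1 (.leaf 3) (.leaf 1))))) (.cut 0 (.cut 1 (.cut 0 (.cut 1 (.cut 0 (.cut 1 (.leaf 3) (.leaf 1)) (.leaf 1))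 (.leaf 1)) (.leaf 1)) (.leaf 0)) (.leaf 1))) (.cut 1 (.cut 0 (.cut 1 (.leaf 3) (.leaf 1)) (.leaf 1)) (.leaf 1))) (.leaf 0)))))))) (.cut 1 (.leaf 3) (.cut 0 (.cut 1 (.leaf 3) (.cut 0 (.cut 1 (.cut 0 (.cut 1 (.leaf 3) (.cut 0 (.leaf 3) (.cut 1 (.leaf 3) (.leaf 1)))) (.cut 1 (.leaf 3) (.cut 0 (.cut 1 (.leaf 3) (.leaf 1)) (.leaf 1)))) (.leaf 1)) (.cut 1 (.cut 0 (.cut 1 (.leaf 3) (.leaf 1)) (.leaf 1)) (.leaf 1)))) (.cut 1 (.cut 0 (.cut 1 (.leaf 3) (.cut 0 (.leaf 3) (.cut 1 (.leaf 3) (.leaf 1)))) (.cut 1 (.leaf 3) (.leaf 1))) (.leaf 1)))))))) (.cut 1 (.leaf 3) (.cut 0 (.cut 1 (.leaf 3) (.cut 0 (.cut 1 (.cut 0 (.leaf 3) (.cut 1 (.leaf 3) (.cut 0 (.leaf 3) (.leaf 1)))) (.leaf 1)) (.cut 1 (.cut 0 (.cut 1 (.leaf 3) (.leaf 1)) (.leaf 1)) (.leaf 1)))) (.cut 1 (.cut 0 (.leaf 3) (.cut 1 (.leaf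 3) (.leaf 1))) (.leaf 1))))) (.cut 0 (.cut 1 (.leaf 12) (.leaf 1)) (.leaf 1)))) (.leaf 2)) (.cut 1 (.cut 0 (.cut 1 (.cut 0 (.cut 1 (.cut 0 (.leaf 3) (.cut 1 (.leaf 3) (.cut 0 (.cut 1 (.leaf 3) (.leaf 1)) (.leaf 1)))) (.leaf 1)) (.cut 1 (.cut 0 (.cut 1 (.leaf 3) (.leaf 1)) (.leaf 1)) (.leaf 1))) (.leaf 1)) (.leaf 1)) (.leaf 2)))

theorem check12HHL : checkAlt 2 (mulAlts (xKnum 12) 16000000 30000 12000 15000 mus12) tree12HHL (halve Iv.low 0 (halve Iv.high 1 (halve Iv.high 0 pairBox))) = true := by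
  decide +kernel

/-- A subtree of interval 12. -/
def tree12HHH : ACut :=
  .cut 1 (.cut 0 (.cut 1 (.cut 0 (.cut 1 (.leaf 3) (.cut 0 (.leaf 3) (.cut 1 (.cut 0 (.leaf 3) (.cut 1 (.leaf 3) (.cut 0 (.leaf 3) (.cut 1 (.cut 0 (.leaf 3) (.cut 1 (.leaf 16) (.cut 0 (.leaf 3) (.cut 1 (.leaf 15) (.cut 0 (.cut 1 (.cut 0 (.leaf 3) (.cut 1 (.leaf 15) (.cut 0 (.cut 1 (.cut 0 (.leaf 3) (.cut 1 (.leaf 3) (.cut 0 (.leaf 3) (.leaf 14)))) (.cut 0 (.cut 1 (.leaf 3) (.cut 0 (.leaf 3) (.cut 1 (.leaf 3) (.cut 0 (.leaf 3) (.leaf 1))))) (.cut 1 (.cut 0 (.cut 1 (.cut 0 (.leaf 3) (.cut 1 (.leaf 3) (.cut 0 (.leaf 3) (.cut 1 (.leaf 3) (.cut 0 (.leaf 3) (.leaf 1)))))) (.cut 0 (.leaf 3) (.cut 1 (.cut 0 (.leaf 3) (.leaf 1)) (.leaf 1)))) (.cut 1 (.cut 0 (.cut 1 (.leaf 15) (.leaf 1)) (.leaf 0)) (.leaf 1))) (.leaf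 1)))) (.leaf 0)))) (.cut 0 (.cut 1 (.cut 0 (.leaf 3) (.cut 1 (.leaf 3) (.cut 0 (.leaf 3) (.leaf 1)))) (.cut 0 (.cut 1 (.leaf 3) (.leaf 1)) (.leaf 1))) (.cut 1 (.cut 0 (.cut 1 (.cut 0 (.cut 1 (.cut 0 (.leaf 3) (.leaf 1)) (.leaf 1)) (.leaf 1)) (.leaf 1)) (.leaf 0)) (.leaf 1)))) (.leaf 0)))))) (.cut 0 (.cut 1 (.leaf 3) (.cut 0 (.leaf 3) (.cut 1 (.cut 0 (.leaf 3) (.leaf 1)) (.leaf 1)))) (.cut 1 (.cut 0 (.cut 1 (.cut 0 (.leaf 3) (.cut 1 (.cut 0 (.leaf 3) (.cut 1 (.leaf 3) (.leaf 1))) (.cut 0 (.cut 1 (.leaf 3) (.leaf 1)) (.leaf 1)))) (.cut 0 (.cut 1 (.leaf 3) (.leaf 1)) (.leaf 1))) (.leaf 1)) (.leaf 1))))))) (.cut 0 (.cut 1 (.leaf 3) (.cut 0 (.leaf 3) (.cut 1 (.leaf 3) (.leaf 1)))) (.cut 1 (.cut 0 (.cut 1 (.cut 0 (.leaf 3) (.cut 1 (.leaf 3) (.cut 0 (.leaf 3) (.leaf 1)))) (.cut 0 (.leaf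 3) (.leaf 1))) (.leaf 1)) (.leaf 1)))))) (.cut 1 (.cut 0 (.leaf 13) (.cut 1 (.leaf 4) (.leaf 5))) (.cut 0 (.cut 1 (.leaf 12) (.leaf 1)) (.leaf 1)))) (.cut 0 (.cut 1 (.cut 0 (.cut 1 (.cut 0 (.leaf 3) (.cut 1 (.leaf 3) (.cut 0 (.leaf 3) (.leaf 1)))) (.cut 0 (.cut 1 (.leaf 3) (.leaf 1)) (.leaf 1))) (.leaf 1)) (.leaf 1)) (.leaf 1))) (.leaf 2)) (.leaf 2)

theorem check12HHH : checkAlt 2 (mulAlts (xKnum 12) 16000000 30000 12000 15000 mus12) tree12HHH (halve Iv.high 0 (halve Iv.high 1 (halve Iv.high 0 pairBox))) = true := by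
  decide +kernel

/-- A subtree of interval 12. -/
def tree12HH : ACut :=
  .cut 0 tree12HHL tree12HHH

theorem check12HH : checkAlt 2 (mulAlts (xKnum 12) 16000000 30000 12000 15000 mus12) tree12HH (halve Iv.high 1 (halve Iv.high 0 pairBox)) = true := by
  simp only [tree12HH, checkAlt, check12HHL, check12HHH, Bool.and_self]

/-- A subtree of interval 12. -/
def tree12H : ACut :=
  .cut 1 tree12HL tree12HH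

theorem check12H : checkAlt 2 (mulAlts (xKnum 12) 16000000 30000 12000 15000 mus12) tree12H (halve Iv.high 0 pairBox) = true := by
  simp only [tree12H, checkAlt, check12HL, check12HH, Bool.and_self]

/-- A subtree of interval 12. -/
def tree12 : ACut :=
  .cut 0 tree12L tree12H

theorem check12 : checkAlt 2 (mulAlts (xKnum 12) 16000000 30000 12000 15000 mus12) tree12 pairBox = true := by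
  simp only [tree12, checkAlt, check12L, check12H, Bool.and_self]

end Vale.Agent.P154.Ferro4.Maj
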