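import Vale.Agent.P154.Ferro4.Majorant
import Vale.Agent.P154.Ferro4.XData

/-!
P154, four states: kernel certificates of the pair inequalities of intervals 13, 14.
Large trees are checked subtree by subtree.
-/

namespace Vale.Agent.P154.Ferro4.Maj

open PolyCheck

/-- Multipliers of interval 13. -/
def mus13 : List (Fin 3 × ℕ) := [(1, 2), (1, 4), (1, 8), (1, 16), (2, 1), (2, 4), (2, 8), (2, 16), (2, 33), (2, 66), (2, 133)]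

/-- A subtree of interval 13. -/
def tree13LL : ACut :=
  .cut 0 (.cut 1 (.cut 0 (.leaf 0) (.cut 1 (.leaf 0) (.cut 0 (.leaf 0) (.cut 1 (.leaf 0) (.cut 0 (.leaf 0) (.cut 1 (.leaf 0) (.leaf 0))))))) (.cut 0 (.cut 1 (.leaf 0) (.cut 0 (.leaf 0) (.cut 1 (.leaf 0) (.cut 0 (.leaf 0) (.cut 1 (.leaf 0) (.leaf 11)))))) (.cut 1 (.cut 0 (.leaf 0) (.leaf 0)) (.cut 0 (.cut 1 (.leaf 0) (.cut 0 (.cut 1 (.cut 0 (.leaf 0) (.cut 1 (.leaf 0) (.leaf 10))) (.cut 0 (.cut 1 (.cut 0 (.cut 1 (.leaf 0) (.leaf 11)) (.cut 1 (.cut 0 (.leaf 10) (.cut 1 (.leaf 10) (.leaf 3))) (.leaf 3))) (.leaf 3)) (.cut 1 (.cut 0 (.cut 1 (.cut 0 (.cut 1 (.cut 0 (.cut 1 (.leaf 9) (.leaf 11)) (.cut 1 (.leaf 10) (.leaf 3))) (.leaf 3)) (.leaf 11)) (.leaf 3)) (.leaf 3)) (.leaf 3)))) (.cut 1 (.leaf 9) (.leaf 3)))) (.leaf 9)))))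 (.cut 1 (.cut 0 (.cut 1 (.leaf 0) (.cut 0 (.cut 1 (.leaf 0) (.leaf 0)) (.leaf 0))) (.cut 1 (.cut 0 (.leaf 0) (.cut 1 (.leaf 0) (.cut 0 (.leaf 0) (.leaf 11)))) (.cut 0 (.leaf 0) (.cut 1 (.cut 0 (.cut 1 (.cut 0 (.leaf 0) (.cut 1 (.leaf 0) (.leaf 10))) (.leaf 9)) (.cut 1 (.cut 0 (.cut 1 (.cut 0 (.cut 1 (.leaf 0) (.cut 0 (.leaf 10) (.leaf 11))) (.leaf 11)) (.cut 0 (.cut 1 (.cut 0 (.cut 1 (.cut 0 (.leaf 10) (.leaf 11)) (.leaf 11)) (.leaf 3)) (.leaf 3)) (.leaf 3))) (.leaf 3)) (.leaf 3))) (.leaf 9))))) (.leaf 0))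

theorem check13LL : checkAlt 2 (mulAlts (xKnum 13) 16000000 30000 15000 18000 mus13) tree13LL (halve Iv.low 1 (halve Iv.low 0 pairBox)) = true := by
  decide +kernel

/-- A subtree of interval 13. -/
def tree13LH : ACut :=
  .cut 0 (.cut 1 (.leaf 12) (.cut 0 (.cut 1 (.leaf 12) (.cut 0 (.cut 1 (.leaf 0) (.leaf 2)) (.cut 1 (.leaf 6) (.leaf 2)))) (.cut 1 (.leaf 12) (.cut 0 (.cut 1 (.cut 0 (.cut 1 (.leaf 0) (.leaf 7)) (.cut 1 (.leaf 0) (.cut 0 (.leaf 7) (.cut 1 (.leaf 6) (.leaf 2))))) (.leaf 2)) (.cut 1 (.cut 0 (.cut 1 (.leaf 0) (.cut 0 (.cut 1 (.leaf 7) (.leaf 2)) (.cut 1 (.cut 0 (.cut 1 (.leaf 0) (.leaf 2)) (.cut 1 (.leaf 6) (.leaf 2))) (.leaf 2)))) (.cut 1 (.cut 0 (.leaf 0) (.cut 1 (.leaf 10) (.leaf 0))) (.cut 0 (.cut 1 (.cut 0 (.cut 1 (.leaf 6) (.leaf 2)) (.cut 1 (.cut 0 (.cut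 1 (.leaf 0) (.cut 0 (.cut 1 (.leaf 4) (.leaf 2)) (.cut 1 (.leaf 5) (.leaf 2)))) (.cut 1 (.leaf 0) (.cut 0 (.cut 1 (.leaf 6) (.leaf 2)) (.cut 1 (.leaf 6) (.leaf 2))))) (.leaf 2))) (.leaf 2)) (.cut 1 (.cut 0 (.cut 1 (.cut 0 (.cut 1 (.leaf 0) (.cut 0 (.cut 1 (.leaf 6) (.leaf 2)) (.cut 1 (.leaf 6) (.leaf 2)))) (.cut 1 (.leaf 0) (.cut 0 (.cut 1 (.leaf 6) (.leaf 2)) (.cut 1 (.leaf 6) (.leaf 2))))) (.leaf 2)) (.cut 1 (.cut 0 (.cut 1 (.leaf 0) (.cut 0 (.cut 1 (.leaf 6) (.leaf 2)) (.leaf 6))) (.cut 1 (.leaf 0) (.leaf 6))) (.leaf 2))) (.leaf 2))))) (.leaf 2)))))) (.cut 1 (.leaf 3) (.cut 0 (.cut 1 (.leaf 3) (.cut 0 (.cut 1 (.cut 0 (.cut 1 (.cut 0 (.cut 1 (.cut 0 (.cut 1 (.cut 0 (.cut 1 (.leaf 11) (.leaf 0)) (.cut 1 (.leaf 11) (.leaf 0))) (.leaf 0)) (.cut 1 (.cut 0 (.cut 1 (.leaf 11) (.leaf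 0)) (.cut 1 (.leaf 11) (.leaf 0))) (.leaf 0))) (.leaf 0)) (.cut 1 (.cut 0 (.cut 1 (.cut 0 (.cut 1 (.leaf 11) (.leaf 0)) (.cut 1 (.leaf 11) (.leaf 0))) (.leaf 0)) (.cut 1 (.cut 0 (.cut 1 (.leaf 11) (.leaf 0)) (.cut 1 (.leaf 11) (.leaf 0))) (.leaf 0))) (.leaf 0))) (.cut 0 (.cut 1 (.cut 0 (.cut 1 (.cut 0 (.cut 1 (.leaf 0) (.leaf 6)) (.leaf 5)) (.leaf 2)) (.cut 1 (.leaf 4) (.leaf 2))) (.leaf 2)) (.cut 1 (.leaf 6) (.leaf 2)))) (.cut 1 (.cut 0 (.cut 1 (.cut 0 (.cut 1 (.leaf 11) (.leaf 0)) (.cut 1 (.leaf 11) (.leaf 0))) (.leaf 0)) (.cut 1 (.leaf 11) (.leaf 0))) (.leaf 7))) (.leaf 2)) (.cut 1 (.leaf 8) (.leaf 2)))) (.cut 1 (.cut 0 (.leaf 3) (.cut 1 (.leaf 3) (.cut 0 (.leaf 13) (.cut 1 (.leaf 3) (.cut 0 (.leaf 13) (.cut 1 (.leaf 3) (.cut 0 (.leaf 13) (.cut 1 (.cut 0 (.leaf 14) (.cut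 1 (.leaf 3) (.cut 0 (.cut 1 (.leaf 3) (.leaf 13)) (.cut 1 (.leaf 3) (.cut 0 (.leaf 13) (.cut 1 (.cut 0 (.leaf 14) (.cut 1 (.leaf 3) (.cut 0 (.leaf 13) (.cut 1 (.leaf 3) (.leaf 13))))) (.leaf 0))))))) (.leaf 0))))))))) (.cut 0 (.cut 1 (.leaf 0) (.leaf 2)) (.leaf 0)))))

theorem check13LH : checkAlt 2 (mulAlts (xKnum 13) 16000000 30000 15000 18000 mus13) tree13LH (halve Iv.high 1 (halve Iv.low 0 pairBox)) = true := by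
  decide +kernel

/-- A subtree of interval 13. -/
def tree13L : ACut :=
  .cut 1 tree13LL tree13LH

theorem check13L : checkAlt 2 (mulAlts (xKnum 13) 16000000 30000 15000 18000 mus13) tree13L (halve Iv.low 0 pairBox) = true := by
  simp only [tree13L, checkAlt, check13LL, check13LH, Bool.and_self]

/-- A subtree of interval 13. -/
def tree13HL : ACut :=
  .cut 0 (.leaf 14) (.cut 1 (.cut 0 (.leaf 12) (.cut 1 (.cut 0 (.leaf 6) (.leaf 2)) (.cut 0 (.cut 1 (.cut 0 (.leaf 0) (.cut 1 (.leaf 7) (.cut 0 (.leaf 6) (.leaf 2)))) (.cut 0 (.cut 1 (.leaf 0) (.cut 0 (.leaf 10) (.leaf 0))) (.cut 1 (.cut 0 (.cut 1 (.leaf 7) (.cut 0 (.leaf 6) (.leaf 2))) (.leaf 2)) (.cut 0 (.cut 1 (.cut 0 (.cut 1 (.leaf 6) (.cut 0 (.leaf 0) (.cut 1 (.cut 0 (.leaf 5) (.leaf 2)) (.cut 0 (.leaf 6) (.leaf 2)))))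 (.leaf 2)) (.cut 0 (.cut 1 (.cut 0 (.leaf 0) (.cut 1 (.cut 0 (.leaf 6) (.leaf 2)) (.cut 0 (.leaf 6) (.leaf 2)))) (.cut 0 (.leaf 0) (.cut 1 (.cut 0 (.leaf 6) (.leaf 2)) (.leaf 6)))) (.leaf 2))) (.leaf 2))))) (.leaf 2)))) (.cut 0 (.cut 1 (.leaf 3) (.cut 0 (.leaf 3) (.cut 1 (.leaf 3) (.cut 0 (.leaf 3) (.cut 1 (.leaf 13) (.cut 0 (.leaf 3) (.cut 1 (.leaf 13) (.cut 0 (.cut 1 (.leaf 3) (.cut 0 (.leaf 3) (.cut 1 (.leaf 13) (.cut 0 (.leaf 3) (.cut 1 (.leaf 13) (.cut 0 (.cut 1 (.leaf 3) (.cut 0 (.leaf 3) (.cut 1 (.leaf 13) (.cut 0 (.leaf 3) (.leaf 13))))) (.leaf 0))))))) (.leaf 0))))))))) (.cut 1 (.cut 0 (.cut 1 (.cut 0 (.cut 1 (.cut 0 (.cut 1 (.cut 0 (.cut 1 (.cut 0 (.leaf 11) (.leaf 0)) (.cut 0 (.leaf 11) (.leaf 0))) (.leaf 0)) (.cut 0 (.cut 1 (.cut 0 (.cut 1 (.leaf 11) (.leaf 11))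 (.leaf 0)) (.cut 0 (.leaf 11) (.leaf 0))) (.leaf 0))) (.leaf 0)) (.cut 0 (.cut 1 (.cut 0 (.leaf 11) (.leaf 0)) (.leaf 11)) (.leaf 0))) (.cut 1 (.cut 0 (.cut 1 (.cut 0 (.cut 1 (.cut 0 (.leaf 0) (.leaf 6)) (.leaf 4)) (.leaf 2)) (.leaf 6)) (.leaf 2)) (.leaf 7))) (.leaf 8)) (.leaf 2)) (.cut 0 (.leaf 0) (.leaf 2)))))

theorem check13HL : checkAlt 2 (mulAlts (xKnum 13) 16000000 30000 15000 18000 mus13) tree13HL (halve Iv.low 1 (halve Iv.high 0 pairBox)) = true := by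
  decide +kernel

/-- A subtree of interval 13. -/
def tree13HH : ACut :=
  .cut 0 (.cut 1 (.cut 0 (.leaf 3) (.cut 1 (.leaf 3) (.cut 0 (.leaf 3) (.cut 1 (.leaf 3) (.cut 0 (.leaf 3) (.cut 1 (.leaf 3) (.leaf 1))))))) (.cut 0 (.cut 1 (.cut 0 (.cut 1 (.leaf 3) (.cut 0 (.cut 1 (.leaf 3) (.cut 0 (.cut 1 (.leaf 3) (.cut 0 (.cut 1 (.cut 0 (.cut 1 (.leaf 3) (.cut 0 (.cut 1 (.leaf 3) (.cut 0 (.cut 1 (.cut 0 (.cut 1 (.leaf 3) (.cut 0 (.cut 1 (.leaf 3) (.cut 0 (.cut 1 (.cut 0 (.leaf 13) (.cut 1 (.cut 0 (.cut 1 (.leaf 3) (.leaf 1)) (.cut 1 (.leaf 3) (.leaf 1))) (.leaf 0))) (.leaf 0)) (.leaf 1))) (.cut 1 (.cut 0 (.cut 1 (.leaf 3) (.cut 0 (.cut 1 (.leaf 3) (.leaf 1)) (.cut 1 (.leaf 3) (.leaf 1)))) (.cut 1 (.leaf 3) (.leaf 1))) (.leaf 1)))) (.cut 1 (.leaf 3) (.cut 0 (.cut 1 (.cut 0 (.cut 1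 (.leaf 3) (.leaf 1)) (.leaf 1)) (.leaf 1)) (.leaf 1)))) (.leaf 0)) (.cut 1 (.cut 0 (.cut 1 (.leaf 3) (.leaf 1)) (.leaf 1)) (.leaf 0)))) (.cut 1 (.leaf 3) (.leaf 1)))) (.cut 1 (.leaf 3) (.cut 0 (.cut 1 (.cut 0 (.cut 1 (.leaf 3) (.leaf 1)) (.leaf 1)) (.leaf 1)) (.leaf 1)))) (.leaf 0)) (.cut 1 (.cut 0 (.cut 1 (.leaf 3) (.leaf 1)) (.leaf 1)) (.leaf 0)))) (.cut 1 (.cut 0 (.leaf 3) (.cut 1 (.leaf 3) (.cut 0 (.leaf 3) (.leaf 1)))) (.leaf 1)))) (.cut 1 (.leaf 3) (.cut 0 (.cut 1 (.cut 0 (.cut 1 (.leaf 3) (.leaf 1)) (.leaf 1)) (.leaf 1)) (.leaf 1))))) (.cut 1 (.leaf 3) (.cut 0 (.cut 1 (.cut 0 (.leaf 3) (.cut 1 (.leaf 3) (.leaf 1))) (.leaf 1)) (.leaf 1)))) (.leaf 0)) (.cut 1 (.cut 0 (.cut 1 (.cut 0 (.cut 1 (.leaf 3) (.leaf 1)) (.cut 1 (.leaf 3) (.leaf 1))) (.leaf 1)) (.leaf 1)) (.leaf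 0)))) (.cut 1 (.cut 0 (.cut 1 (.cut 0 (.leaf 3) (.cut 1 (.cut 0 (.leaf 3) (.cut 1 (.cut 0 (.cut 1 (.leaf 3) (.cut 0 (.leaf 3) (.cut 1 (.leaf 3) (.cut 0 (.leaf 3) (.leaf 1))))) (.cut 1 (.cut 0 (.cut 1 (.cut 0 (.leaf 3) (.cut 1 (.cut 0 (.leaf 3) (.cut 1 (.cut 0 (.cut 1 (.cut 0 (.leaf 3) (.cut 1 (.cut 0 (.cut 1 (.leaf 3) (.cut 0 (.leaf 3) (.cut 1 (.cut 0 (.leaf 3) (.leaf 1)) (.leaf 1)))) (.cut 1 (.cut 0 (.cut 1 (.cut 0 (.cut 1 (.leaf 13) (.cut 0 (.leaf 3) (.leaf 1))) (.leaf 0)) (.leaf 1)) (.leaf 0)) (.leaf 1))) (.cut 0 (.cut 1 (.cut 0 (.leaf 3) (.leaf 1)) (.leaf 1)) (.leaf 1)))) (.cut 0 (.cut 1 (.leaf 3) (.leaf 1)) (.leaf 1))) (.leaf 0)) (.leaf 1))) (.cut 0 (.cut 1 (.cut 0 (.leaf 3) (.leaf 1)) (.leaf 1)) (.leaf 1)))) (.cut 0 (.cut 1 (.leaf 3) (.leaf 1)) (.leaf 1))) (.leaf 0)) (.leaf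 1))) (.cut 0 (.cut 1 (.cut 0 (.leaf 3) (.leaf 1)) (.leaf 1)) (.leaf 1)))) (.cut 0 (.cut 1 (.cut 0 (.leaf 3) (.leaf 1)) (.leaf 1)) (.leaf 1)))) (.cut 0 (.cut 1 (.cut 0 (.leaf 3) (.leaf 1)) (.leaf 1)) (.leaf 1))) (.leaf 0)) (.leaf 1))

theorem check13HH : checkAlt 2 (mulAlts (xKnum 13) 16000000 30000 15000 18000 mus13) tree13HH (halve Iv.high 1 (halve Iv.high 0 pairBox)) = true := by
  decide +kernel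

/-- A subtree of interval 13. -/
def tree13H : ACut :=
  .cut 1 tree13HL tree13HH

theorem check13H : checkAlt 2 (mulAlts (xKnum 13) 16000000 30000 15000 18000 mus13) tree13H (halve Iv.high 0 pairBox) = true := by
  simp only [tree13H, checkAlt, check13HL, check13HH, Bool.and_self]

/-- A subtree of interval 13. -/
def tree13 : ACut :=
  .cut 0 tree13L tree13H

theorem check13 : checkAlt 2 (mulAlts (xKnum 13) 16000000 30000 15000 18000 mus13) tree13 pairBox = true := by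
  simp only [tree13, checkAlt, check13L, check13H, Bool.and_self]

/-- Multipliers of interval 14. -/
def mus14 : List (Fin 3 × ℕ) := [(1, 1), (1, 2), (1, 4), (2, 1), (2, 2), (2, 4), (2, 8), (2, 16), (2, 33), (2, 133), (2, 266)]

/-- A subtree of interval 14. -/
def tree14LLL : ACut :=
  .cut 1 (.cut 0 (.leaf 0) (.cut 1 (.leaf 0) (.cut 0 (.cut 1 (.leaf 0) (.leaf 0)) (.cut 1 (.leaf 0) (.cut 0 (.cut 1 (.cut 0 (.cut 1 (.leaf 0) (.leaf 0)) (.cut 1 (.leaf 0) (.leaf 0))) (.leaf 0)) (.leaf 0)))))) (.cut 0 (.cut 1 (.leaf 0) (.cut 0 (.cut 1 (.cut 0 (.leaf 0) (.cut 1 (.leaf 0) (.leaf 11))) (.leaf 3)) (.cut 1 (.cut 0 (.cut 1 (.leaf 0) (.cut 0 (.cut 1 (.cut 0 (.leaf 0) (.cut 1 (.leaf 0) (.cut 0 (.leaf 8) (.cut 1 (.leaf 0) (.leaf 11))))) (.leaf 11)) (.cut 1 (.cut 0 (.cut 1 (.leaf 0) (.cut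 0 (.cut 1 (.leaf 0) (.cut 0 (.cut 1 (.cut 0 (.leaf 11) (.cut 1 (.leaf 0) (.leaf 11))) (.leaf 3)) (.cut 1 (.cut 0 (.cut 1 (.cut 0 (.leaf 0) (.cut 1 (.leaf 0) (.cut 0 (.leaf 10) (.cut 1 (.leaf 0) (.leaf 11))))) (.leaf 11)) (.cut 1 (.cut 0 (.cut 1 (.leaf 0) (.cut 0 (.cut 1 (.leaf 0) (.leaf 11)) (.cut 1 (.leaf 9) (.leaf 11)))) (.cut 1 (.leaf 0) (.cut 0 (.cut 1 (.cut 0 (.cut 1 (.leaf 0) (.leaf 11)) (.cut 1 (.leaf 0) (.leaf 11))) (.leaf 3)) (.cut 1 (.cut 0 (.cut 1 (.leaf 0) (.leaf 11)) (.cut 1 (.cut 0 (.leaf 8) (.cut 1 (.leaf 0) (.leaf 11))) (.leaf 11))) (.leaf 3))))) (.leaf 3))) (.leaf 3)))) (.cut 1 (.leaf 9) (.cut 0 (.cut 1 (.cut 0 (.cut 1 (.cut 0 (.cut 1 (.cut 0 (.leaf 0) (.cut 1 (.leaf 0) (.cut 0 (.leaf 0) (.cut 1 (.leaf 0) (.cut 0 (.leaf 10) (.cut 1 (.leaf 0) (.cut 0 (.cut 1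 (.leaf 0) (.leaf 11)) (.cut 1 (.leaf 0) (.leaf 11))))))))) (.cut 0 (.cut 1 (.cut 0 (.cut 1 (.cut 0 (.cut 1 (.leaf 0) (.leaf 11)) (.cut 1 (.leaf 0) (.leaf 11))) (.leaf 3)) (.cut 1 (.cut 0 (.cut 1 (.leaf 10) (.leaf 11)) (.cut 1 (.cut 0 (.cut 1 (.leaf 0) (.leaf 11)) (.cut 1 (.leaf 0) (.leaf 11))) (.leaf 3))) (.leaf 3))) (.leaf 3)) (.cut 1 (.cut 0 (.cut 1 (.cut 0 (.cut 1 (.cut 0 (.cut 1 (.leaf 0) (.leaf 11)) (.leaf 11)) (.leaf 3)) (.leaf 11)) (.leaf 3)) (.leaf 11)) (.leaf 3)))) (.cut 1 (.cut 0 (.cut 1 (.leaf 0) (.cut 0 (.cut 1 (.leaf 0) (.cut 0 (.cut 1 (.leaf 0) (.cut 0 (.cut 1 (.leaf 0) (.leaf 11)) (.cut 1 (.leaf 10) (.leaf 3)))) (.cut 1 (.leaf 0) (.leaf 11)))) (.cut 1 (.leaf 0) (.cut 0 (.cut 1 (.leaf 10) (.leaf 11)) (.cut 1 (.cut 0 (.cut 1 (.leaf 0) (.leaf 11)) (.cut 1 (.leaf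 0) (.leaf 11))) (.leaf 3)))))) (.cut 1 (.leaf 0) (.cut 0 (.cut 1 (.leaf 0) (.cut 0 (.cut 1 (.cut 0 (.cut 1 (.leaf 0) (.leaf 11)) (.leaf 11)) (.leaf 3)) (.leaf 11))) (.cut 1 (.leaf 10) (.leaf 11))))) (.leaf 3))) (.leaf 3)) (.cut 1 (.cut 0 (.cut 1 (.cut 0 (.cut 1 (.leaf 0) (.cut 0 (.cut 1 (.cut 0 (.cut 1 (.leaf 0) (.leaf 11)) (.cut 1 (.leaf 0) (.leaf 11))) (.leaf 3)) (.cut 1 (.cut 0 (.cut 1 (.leaf 0) (.leaf 11)) (.leaf 11)) (.leaf 3)))) (.cut 1 (.leaf 0) (.leaf 11))) (.leaf 3)) (.cut 1 (.cut 0 (.cut 1 (.leaf 10) (.leaf 3)) (.cut 1 (.leaf 10) (.leaf 3))) (.leaf 3))) (.leaf 3))) (.leaf 3)) (.leaf 11))))) (.cut 1 (.leaf 0) (.cut 0 (.cut 1 (.leaf 9) (.leaf 3)) (.leaf 11)))) (.leaf 3)))) (.cut 1 (.leaf 0) (.cut 0 (.cut 1 (.leaf 10) (.leaf 3)) (.leaf 7)))) (.leaf 3)))) (.cut 1 (.leaf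 0) (.leaf 9)))

theorem check14LLL : checkAlt 2 (mulAlts (xKnum 14) 16000000 30000 18000 21000 mus14) tree14LLL (halve Iv.low 0 (halve Iv.low 1 (halve Iv.low 0 pairBox))) = true := by
  decide +kernel

/-- A subtree of interval 14. -/
def tree14LLH : ACut :=
  .cut 1 (.cut 0 (.cut 1 (.leaf 0) (.leaf 0)) (.cut 1 (.cut 0 (.cut 1 (.cut 0 (.leaf 0) (.leaf 11)) (.cut 0 (.leaf 0) (.cut 1 (.cut 0 (.cut 1 (.cut 0 (.leaf 0) (.cut 1 (.leaf 0) (.cut 0 (.leaf 0) (.leaf 11)))) (.cut 0 (.leaf 0) (.cut 1 (.cut 0 (.leaf 9) (.cut 1 (.cut 0 (.cut 1 (.cut 0 (.leaf 0) (.leaf 11)) (.cut 0 (.cut 1 (.cut 0 (.leaf 0) (.cut 1 (.leaf 0) (.cut 0 (.leaf 0) (.leaf 11)))) (.cut 0 (.leaf 0) (.cut 1 (.cut 0 (.leaf 9) (.leaf 11)) (.cut 0 (.cut 1 (.cut 0 (.leaf 0) (.leaf 11)) (.cut 0 (.cut 1 (.leaf 0) (.cut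 0 (.leaf 0) (.cut 1 (.leaf 8) (.leaf 11)))) (.leaf 11))) (.leaf 3))))) (.leaf 11))) (.leaf 3)) (.cut 0 (.cut 1 (.cut 0 (.cut 1 (.cut 0 (.cut 1 (.cut 0 (.leaf 0) (.cut 1 (.leaf 0) (.cut 0 (.leaf 0) (.cut 1 (.leaf 0) (.cut 0 (.leaf 0) (.cut 1 (.leaf 10) (.cut 0 (.leaf 0) (.leaf 11)))))))) (.cut 0 (.leaf 0) (.cut 1 (.cut 0 (.leaf 0) (.cut 1 (.cut 0 (.leaf 0) (.cut 1 (.cut 0 (.leaf 10) (.leaf 11)) (.leaf 11))) (.cut 0 (.cut 1 (.leaf 10) (.cut 0 (.leaf 0) (.leaf 11))) (.leaf 11)))) (.cut 0 (.leaf 10) (.cut 1 (.cut 0 (.cut 1 (.cut 0 (.leaf 9) (.leaf 11)) (.leaf 11)) (.leaf 3)) (.leaf 11)))))) (.cut 1 (.cut 0 (.cut 1 (.cut 0 (.cut 1 (.cut 0 (.leaf 0) (.leaf 11)) (.cut 0 (.cut 1 (.leaf 10) (.cut 0 (.leaf 0) (.leaf 11))) (.leaf 11))) (.leaf 3)) (.cut 0 (.cut 1 (.cut 0 (.cut 1 (.cut 0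 (.leaf 10) (.leaf 11)) (.leaf 11)) (.leaf 3)) (.leaf 11)) (.leaf 3))) (.leaf 3)) (.leaf 3))) (.cut 0 (.cut 1 (.cut 0 (.leaf 0) (.cut 1 (.cut 0 (.cut 1 (.cut 0 (.leaf 0) (.leaf 11)) (.cut 0 (.leaf 9) (.leaf 11))) (.leaf 3)) (.leaf 11))) (.cut 0 (.leaf 10) (.leaf 3))) (.leaf 3))) (.leaf 3)) (.leaf 11)) (.leaf 3)))) (.cut 0 (.leaf 9) (.leaf 3))))) (.leaf 12)) (.cut 0 (.leaf 10) (.leaf 3))))) (.leaf 3)) (.leaf 9))) (.leaf 0)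

theorem check14LLH : checkAlt 2 (mulAlts (xKnum 14) 16000000 30000 18000 21000 mus14) tree14LLH (halve Iv.high 0 (halve Iv.low 1 (halve Iv.low 0 pairBox))) = true := by
  decide +kernel

/-- A subtree of interval 14. -/
def tree14LL : ACut :=
  .cut 0 tree14LLL tree14LLH

theorem check14LL : checkAlt 2 (mulAlts (xKnum 14) 16000000 30000 18000 21000 mus14) tree14LL (halve Iv.low 1 (halve Iv.low 0 pairBox)) = true := by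
  simp only [tree14LL, checkAlt, check14LLL, check14LLH, Bool.and_self]

/-- A subtree of interval 14. -/
def tree14LH : ACut :=
  .cut 0 (.cut 1 (.leaf 3) (.cut 0 (.cut 1 (.leaf 3) (.cut 0 (.cut 1 (.leaf 0) (.leaf 2)) (.cut 1 (.leaf 9) (.leaf 2)))) (.cut 1 (.leaf 3) (.cut 0 (.cut 1 (.cut 0 (.cut 1 (.leaf 11) (.leaf 0)) (.cut 1 (.leaf 3) (.leaf 0))) (.leaf 2)) (.cut 1 (.cut 0 (.cut 1 (.leaf 3) (.cut 0 (.cut 1 (.leaf 0) (.cut 0 (.cut 1 (.leaf 0) (.leaf 6)) (.cut 1 (.leaf 0) (.cut 0 (.cut 1 (.leaf 0) (.cut 0 (.leaf 6) (.cut 1 (.leaf 0) (.cut 0 (.leaf 6) (.cut 1 (.leaf 0) (.cut 0 (.cut 1 (.leaf 6) (.leaf 2)) (.cut 1 (.leaf 6) (.leaf 2)))))))) (.cut 1 (.leaf 0) (.cut 0 (.cut 1 (.leaf 0) (.cut 0 (.cut 1 (.leaf 0) (.cut 0 (.cut 1 (.leaf 6) (.leaf 2)) (.cut 1 (.leaf 6) (.leaf 2))))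 (.cut 1 (.leaf 0) (.cut 0 (.cut 1 (.leaf 6) (.leaf 2)) (.cut 1 (.cut 0 (.cut 1 (.leaf 0) (.leaf 2)) (.cut 1 (.leaf 0) (.leaf 2))) (.leaf 2)))))) (.cut 1 (.leaf 0) (.cut 0 (.cut 1 (.leaf 0) (.cut 0 (.cut 1 (.cut 0 (.cut 1 (.leaf 4) (.leaf 2)) (.cut 1 (.leaf 5) (.leaf 2))) (.leaf 2)) (.cut 1 (.cut 0 (.cut 1 (.leaf 5) (.leaf 2)) (.cut 1 (.leaf 5) (.leaf 2))) (.leaf 2)))) (.cut 1 (.leaf 0) (.cut 0 (.cut 1 (.cut 0 (.cut 1 (.leaf 6) (.leaf 2)) (.cut 1 (.leaf 5) (.leaf 2))) (.leaf 2)) (.cut 1 (.cut 0 (.cut 1 (.leaf 5) (.leaf 2)) (.cut 1 (.leaf 4) (.leaf 2))) (.leaf 2)))))))))))) (.cut 1 (.leaf 0) (.cut 0 (.cut 1 (.leaf 0) (.cut 0 (.cut 1 (.leaf 0) (.cut 0 (.cut 1 (.leaf 0) (.cut 0 (.cut 1 (.leaf 0) (.cut 0 (.cut 1 (.leaf 6) (.leaf 2)) (.cut 1 (.leaf 6) (.leaf 2)))) (.leaf 6))) (.cut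 1 (.leaf 0) (.leaf 6)))) (.cut 1 (.leaf 0) (.cut 0 (.cut 1 (.leaf 0) (.leaf 6)) (.leaf 4))))) (.leaf 0))))) (.cut 1 (.leaf 3) (.cut 0 (.cut 1 (.cut 0 (.cut 1 (.leaf 9) (.leaf 0)) (.cut 1 (.cut 0 (.leaf 9) (.cut 1 (.cut 0 (.cut 1 (.leaf 3) (.leaf 9)) (.cut 1 (.leaf 3) (.cut 0 (.cut 1 (.cut 0 (.cut 1 (.leaf 3) (.leaf 9)) (.cut 1 (.leaf 3) (.leaf 9))) (.leaf 0)) (.cut 1 (.cut 0 (.cut 1 (.leaf 3) (.leaf 9)) (.cut 1 (.leaf 3) (.cut 0 (.cut 1 (.leaf 3) (.leaf 9)) (.cut 1 (.leaf 3) (.leaf 9))))) (.leaf 0))))) (.leaf 0))) (.leaf 0))) (.leaf 0)) (.cut 1 (.cut 0 (.cut 1 (.cut 0 (.cut 1 (.cut 0 (.cut 1 (.leaf 3) (.cut 0 (.cut 1 (.cut 0 (.cut 1 (.leaf 3) (.cut 0 (.cut 1 (.leaf 3) (.leaf 9)) (.cut 1 (.leaf 3) (.leaf 9)))) (.cut 1 (.leaf 3) (.cut 0 (.cut 1 (.leaf 3) (.leaf 9)) (.cut 1 (.leaf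 3) (.leaf 9))))) (.leaf 0)) (.cut 1 (.cut 0 (.cut 1 (.leaf 3) (.cut 0 (.cut 1 (.leaf 3) (.leaf 9)) (.cut 1 (.leaf 3) (.leaf 9)))) (.leaf 10)) (.leaf 0)))) (.cut 1 (.leaf 3) (.cut 0 (.cut 1 (.leaf 10) (.leaf 0)) (.cut 1 (.leaf 10) (.leaf 0))))) (.leaf 0)) (.cut 1 (.cut 0 (.cut 1 (.leaf 3) (.cut 0 (.cut 1 (.leaf 10) (.leaf 0)) (.cut 1 (.leaf 10) (.leaf 0)))) (.cut 1 (.leaf 3) (.leaf 9))) (.leaf 0))) (.leaf 0)) (.cut 1 (.cut 0 (.cut 1 (.leaf 10) (.leaf 0)) (.leaf 9)) (.leaf 0))) (.leaf 0))))) (.leaf 2)))))) (.cut 1 (.leaf 0) (.cut 0 (.cut 1 (.leaf 3) (.cut 0 (.cut 1 (.cut 0 (.cut 1 (.leaf 3) (.leaf 9)) (.leaf 10)) (.leaf 0)) (.leaf 11))) (.cut 1 (.leaf 3) (.leaf 11))))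

theorem check14LH : checkAlt 2 (mulAlts (xKnum 14) 16000000 30000 18000 21000 mus14) tree14LH (halve Iv.high 1 (halve Iv.low 0 pairBox)) = true := by
  decide +kernel

/-- A subtree of interval 14. -/
def tree14L : ACut :=
  .cut 1 tree14LL tree14LH

theorem check14L : checkAlt 2 (mulAlts (xKnum 14) 16000000 30000 18000 21000 mus14) tree14L (halve Iv.low 0 pairBox) = true := by
  simp only [tree14L, checkAlt, check14LL, check14LH, Bool.and_self]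

/-- A subtree of interval 14. -/
def tree14H : ACut :=
  .cut 1 (.cut 0 (.leaf 3) (.cut 1 (.cut 0 (.leaf 3) (.cut 1 (.cut 0 (.leaf 9) (.leaf 2)) (.cut 0 (.cut 1 (.cut 0 (.leaf 11) (.leaf 0)) (.cut 0 (.leaf 3) (.cut 1 (.cut 0 (.leaf 0) (.cut 1 (.cut 0 (.leaf 0) (.cut 1 (.leaf 6) (.cut 0 (.leaf 0) (.cut 1 (.cut 0 (.leaf 0) (.cut 1 (.leaf 6) (.cut 0 (.leaf 0) (.cut 1 (.leaf 6) (.cut 0 (.leaf 6) (.leaf 2)))))) (.cut 0 (.leaf 0) (.cut 1 (.cut 0 (.leaf 0) (.cut 1 (.cut 0 (.leaf 6) (.leaf 2)) (.cut 0 (.cut 1 (.leaf 6) (.cut 0 (.leaf 0) (.leaf 2))) (.leaf 2)))) (.cut 0 (.leaf 0) (.cut 1 (.cut 0 (.cut 1 (.cut 0 (.leaf 5) (.leaf 2)) (.cut 0 (.leaf 5) (.leaf 2))) (.leaf 2)) (.cut 0 (.cut 1 (.cut 0 (.leaf 6) (.leaf 2)) (.cut 0 (.leaf 5) (.leaf 2))) (.leaf 2)))))))))) (.cut 0 (.leaf 0)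 (.cut 1 (.cut 0 (.leaf 0) (.cut 1 (.cut 0 (.leaf 0) (.cut 1 (.cut 0 (.leaf 0) (.cut 1 (.cut 0 (.leaf 6) (.leaf 2)) (.leaf 6))) (.leaf 6))) (.cut 0 (.leaf 0) (.leaf 6)))) (.leaf 0))))) (.cut 0 (.cut 1 (.cut 0 (.cut 1 (.leaf 9) (.cut 0 (.cut 1 (.leaf 9) (.cut 0 (.leaf 3) (.cut 1 (.leaf 9) (.cut 0 (.cut 1 (.cut 0 (.leaf 3) (.leaf 9)) (.cut 0 (.leaf 3) (.cut 1 (.leaf 9) (.cut 0 (.leaf 3) (.leaf 9))))) (.leaf 0))))) (.leaf 0))) (.leaf 0)) (.cut 0 (.cut 1 (.cut 0 (.cut 1 (.cut 0 (.leaf 3) (.cut 1 (.cut 0 (.cut 1 (.cut 0 (.leaf 3) (.cut 1 (.cut 0 (.leaf 3) (.leaf 9)) (.cut 0 (.leaf 3) (.leaf 9)))) (.cut 0 (.leaf 3) (.cut 1 (.cut 0 (.leaf 3) (.leaf 9)) (.leaf 10)))) (.leaf 0)) (.cut 0 (.leaf 10) (.leaf 0)))) (.cut 0 (.leaf 3) (.cut 1 (.cut 0 (.leaf 10) (.leaf 0)) (.leaf 9)))) (.leaf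 0)) (.cut 0 (.leaf 10) (.leaf 0))) (.leaf 0))) (.leaf 0))))) (.leaf 2)))) (.cut 0 (.leaf 3) (.cut 1 (.cut 0 (.cut 1 (.cut 0 (.leaf 3) (.leaf 9)) (.leaf 11)) (.leaf 0)) (.leaf 11))))) (.cut 0 (.cut 1 (.leaf 3) (.leaf 13)) (.leaf 14))

theorem check14H : checkAlt 2 (mulAlts (xKnum 14) 16000000 30000 18000 21000 mus14) tree14H (halve Iv.high 0 pairBox) = true := by
  decide +kernel

/-- A subtree of interval 14. -/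
def tree14 : ACut :=
  .cut 0 tree14L tree14H

theorem check14 : checkAlt 2 (mulAlts (xKnum 14) 16000000 30000 18000 21000 mus14) tree14 pairBox = true := by
  simp only [tree14, checkAlt, check14L, check14H, Bool.and_self]

end Vale.Agent.P154.Ferro4.Maj
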