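import Vale.Agent.P154.Ferro4.Majorant
import Vale.Agent.P154.Ferro4.XData

/-!
P154, four states: kernel certificates of the pair inequalities of intervals 15, 16, 17, 18.
Large trees are checked subtree by subtree.
-/

namespace Vale.Agent.P154.Ferro4.Maj

open PolyCheck

/-- Multipliers of interval 15. -/
def mus15 : List (Fin 3 × ℕ) := [(1, 1), (1, 2), (1, 4), (1, 16), (2, 1), (2, 2), (2, 4), (2, 8), (2, 16), (2, 133), (2, 533)]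

/-- A subtree of interval 15. -/
def tree15 : ACut :=
  .cut 0 (.cut 1 (.cut 0 (.cut 1 (.cut 0 (.leaf 0) (.cut 1 (.leaf 0) (.cut 0 (.cut 1 (.cut 0 (.leaf 0) (.leaf 0)) (.leaf 0)) (.leaf 0)))) (.cut 0 (.cut 1 (.cut 0 (.cut 1 (.leaf 0) (.leaf 11)) (.cut 1 (.leaf 0) (.cut 0 (.cut 1 (.leaf 0) (.cut 0 (.cut 1 (.cut 0 (.leaf 10) (.cut 1 (.leaf 8) (.leaf 3))) (.leaf 3)) (.cut 1 (.cut 0 (.cut 1 (.leaf 8) (.leaf 3)) (.leaf 9)) (.leaf 3)))) (.leaf 8)))) (.leaf 3)) (.leaf 0))) (.cut 1 (.cut 0 (.cut 1 (.cut 0 (.leaf 0) (.cut 1 (.leaf 11) (.cut 0 (.leaf 0) (.cut 1 (.cut 0 (.cut 1 (.cut 0 (.leaf 8) (.leaf 11)) (.cut 0 (.leaf 8) (.leaf 3))) (.leaf 3)) (.leaf 8))))) (.leaf 0)) (.leaf 3)) (.leaf 0))) (.cut 0 (.cut 1 (.leaf 3) (.cut 0 (.cut 1 (.leaf 0) (.cut 0 (.leaf 7) (.cut 1 (.leaf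 0) (.cut 0 (.leaf 7) (.cut 1 (.leaf 4) (.leaf 2)))))) (.cut 1 (.leaf 0) (.cut 0 (.cut 1 (.leaf 0) (.cut 0 (.cut 1 (.cut 0 (.leaf 6) (.leaf 6)) (.leaf 2)) (.cut 1 (.cut 0 (.cut 1 (.leaf 0) (.cut 0 (.cut 1 (.leaf 5) (.leaf 2)) (.cut 1 (.leaf 4) (.leaf 2)))) (.leaf 0)) (.leaf 2)))) (.cut 1 (.cut 0 (.cut 1 (.leaf 0) (.cut 0 (.cut 1 (.leaf 0) (.leaf 8)) (.cut 1 (.leaf 3) (.cut 0 (.cut 1 (.leaf 3) (.cut 0 (.cut 1 (.leaf 3) (.cut 0 (.leaf 8) (.cut 1 (.leaf 3) (.leaf 0)))) (.cut 1 (.leaf 3) (.leaf 10)))) (.leaf 11))))) (.leaf 11)) (.cut 0 (.leaf 0) (.leaf 0))))))) (.cut 1 (.leaf 0) (.cut 0 (.cut 1 (.leaf 3) (.cut 0 (.cut 1 (.leaf 11) (.leaf 0)) (.leaf 12))) (.leaf 13))))) (.cut 1 (.cut 0 (.leaf 3) (.cut 1 (.cut 0 (.leaf 0) (.cut 1 (.cut 0 (.leaf 0) (.cut 1 (.leaf 7) (.cut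 0 (.leaf 4) (.leaf 2)))) (.cut 0 (.cut 1 (.leaf 0) (.cut 0 (.leaf 0) (.cut 1 (.cut 0 (.leaf 3) (.cut 1 (.leaf 8) (.cut 0 (.leaf 3) (.cut 1 (.cut 0 (.leaf 3) (.cut 1 (.cut 0 (.leaf 3) (.leaf 0)) (.leaf 10))) (.leaf 10))))) (.leaf 11)))) (.cut 1 (.cut 0 (.cut 1 (.cut 0 (.leaf 0) (.cut 1 (.leaf 6) (.leaf 6))) (.cut 0 (.leaf 0) (.cut 1 (.cut 0 (.cut 1 (.leaf 5) (.leaf 4)) (.leaf 2)) (.leaf 0)))) (.leaf 2)) (.cut 0 (.cut 1 (.leaf 0) (.leaf 0)) (.leaf 0)))))) (.cut 0 (.leaf 3) (.cut 1 (.cut 0 (.leaf 11) (.leaf 0)) (.leaf 11))))) (.cut 0 (.cut 1 (.leaf 3) (.leaf 13)) (.leaf 14)))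

theorem check15 : checkAlt 2 (mulAlts (xKnum 15) 16000000 30000 21000 24000 mus15) tree15 pairBox = true := by
  decide +kernel

/-- Multipliers of interval 16. -/
def mus16 : List (Fin 3 × ℕ) := [(2, 1), (2, 2), (2, 8), (2, 16)]

/-- A subtree of interval 16. -/
def tree16 : ACut :=
  .cut 0 (.cut 1 (.cut 0 (.cut 1 (.cut 0 (.cut 1 (.cut 0 (.cut 1 (.cut 0 (.leaf 0) (.leaf 0)) (.leaf 0)) (.cut 1 (.leaf 0) (.cut 0 (.cut 1 (.leaf 0) (.leaf 0)) (.cut 1 (.leaf 0) (.leaf 0))))) (.leaf 0)) (.cut 1 (.leaf 0) (.cut 0 (.cut 1 (.cut 0 (.leaf 0) (.leaf 0)) (.cut 0 (.cut 1 (.leaf 0) (.cut 0 (.leaf 0) (.cut 1 (.leaf 0) (.leaf 5)))) (.cut 1 (.leaf 0) (.cut 0 (.cut 1 (.leaf 4) (.leaf 5)) (.cut 1 (.leaf 4) (.leaf 3)))))) (.cut 1 (.cut 0 (.leaf 0) (.cut 1 (.cut 0 (.leaf 0) (.leaf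 5)) (.cut 0 (.leaf 4) (.leaf 5)))) (.cut 0 (.cut 1 (.leaf 0) (.leaf 3)) (.leaf 3)))))) (.cut 0 (.leaf 6) (.leaf 7))) (.cut 1 (.cut 0 (.cut 1 (.leaf 6) (.leaf 6)) (.leaf 3)) (.leaf 3))) (.cut 0 (.cut 1 (.leaf 3) (.cut 0 (.cut 1 (.leaf 0) (.cut 0 (.leaf 0) (.cut 1 (.leaf 0) (.cut 0 (.leaf 0) (.cut 1 (.leaf 0) (.leaf 0)))))) (.cut 1 (.leaf 0) (.cut 0 (.cut 1 (.leaf 0) (.cut 0 (.cut 1 (.cut 0 (.leaf 0) (.cut 1 (.leaf 0) (.cut 0 (.cut 1 (.leaf 0) (.cut 0 (.leaf 0) (.cut 1 (.leaf 0) (.leaf 0)))) (.cut 1 (.leaf 0) (.cut 0 (.cut 1 (.leaf 0) (.cut 0 (.leaf 0) (.leaf 0))) (.leaf 0)))))) (.cut 0 (.leaf 0) (.leaf 0))) (.cut 1 (.cut 0 (.cut 1 (.leaf 0) (.leaf 0)) (.leaf 0)) (.leaf 0)))) (.cut 1 (.leaf 0) (.leaf 0)))))) (.cut 1 (.leaf 3) (.cut 0 (.leaf 0) (.cut 1 (.leaf 3) (.cut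 0 (.cut 1 (.leaf 3) (.leaf 1)) (.cut 1 (.cut 0 (.leaf 3) (.cut 1 (.leaf 3) (.leaf 1))) (.leaf 1)))))))) (.cut 1 (.cut 0 (.leaf 3) (.cut 1 (.cut 0 (.leaf 0) (.cut 1 (.cut 0 (.leaf 0) (.cut 1 (.leaf 0) (.cut 0 (.leaf 0) (.leaf 0)))) (.cut 0 (.leaf 0) (.cut 1 (.cut 0 (.cut 1 (.cut 0 (.leaf 0) (.cut 1 (.leaf 0) (.cut 0 (.leaf 0) (.cut 1 (.cut 0 (.leaf 0) (.leaf 0)) (.cut 0 (.leaf 0) (.cut 1 (.cut 0 (.leaf 0) (.leaf 0)) (.leaf 0))))))) (.cut 0 (.leaf 0) (.leaf 0))) (.cut 1 (.cut 0 (.cut 1 (.leaf 0) (.leaf 0)) (.leaf 0)) (.leaf 0))) (.leaf 0))))) (.cut 0 (.leaf 3) (.cut 1 (.leaf 0) (.cut 0 (.cut 1 (.leaf 3) (.cut 0 (.leaf 3) (.leaf 1))) (.leaf 1)))))) (.cut 0 (.cut 1 (.leaf 3) (.cut 0 (.cut 1 (.leaf 3) (.leaf 1)) (.cut 1 (.cut 0 (.cut 1 (.leaf 3) (.leaf 1)) (.leaf 1))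 (.leaf 1)))) (.cut 1 (.cut 0 (.cut 1 (.leaf 3) (.cut 0 (.leaf 3) (.leaf 1))) (.leaf 1)) (.leaf 1))))

theorem check16 : checkAlt 2 (mulAlts (xKnum 16) 16000000 30000 24000 26400 mus16) tree16 pairBox = true := by
  decide +kernel

/-- Multipliers of interval 17. -/
def mus17 : List (Fin 3 × ℕ) := [(2, 8), (2, 16), (2, 33), (2, 66), (2, 133), (2, 533), (2, 2133)]

/-- A subtree of interval 17. -/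
def tree17 : ACut :=
  .cut 0 (.cut 1 (.cut 0 (.cut 1 (.cut 0 (.cut 1 (.leaf 0) (.cut 0 (.leaf 0) (.cut 1 (.leaf 0) (.leaf 4)))) (.cut 1 (.cut 0 (.leaf 0) (.leaf 4)) (.cut 0 (.cut 1 (.cut 0 (.cut 1 (.leaf 0) (.cut 0 (.leaf 0) (.leaf 4))) (.cut 1 (.cut 0 (.leaf 0) (.leaf 4)) (.leaf 3))) (.leaf 3)) (.leaf 3)))) (.leaf 3)) (.leaf 3)) (.cut 0 (.cut 1 (.leaf 3) (.cut 0 (.cut 1 (.leaf 0) (.cut 0 (.cut 1 (.leaf 0) (.cut 0 (.leaf 0) (.cut 1 (.leaf 0) (.leaf 0)))) (.cut 1 (.leaf 0) (.cut 0 (.cut 1 (.leaf 0) (.cut 0 (.cut 1 (.leaf 0) (.leaf 0)) (.cut 1 (.leaf 0) (.leaf 0)))) (.cut 1 (.leaf 3) (.cut 0 (.cut 1 (.leaf 0) (.leaf 0)) (.cut 1 (.cut 0 (.leaf 0) (.cut 1 (.leaf 5) (.leaf 0))) (.leaf 0)))))))) (.cut 1 (.leaf 3) (.cut 0 (.cut 1 (.leaf 3) (.cut 0 (.cut 1 (.leaf 3) (.cut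 0 (.cut 1 (.cut 0 (.cut 1 (.leaf 6) (.leaf 0)) (.cut 1 (.cut 0 (.cut 1 (.leaf 3) (.cut 0 (.cut 1 (.leaf 3) (.cut 0 (.leaf 6) (.cut 1 (.leaf 3) (.leaf 6)))) (.cut 1 (.leaf 3) (.cut 0 (.cut 1 (.leaf 3) (.leaf 6)) (.leaf 7))))) (.leaf 7)) (.leaf 0))) (.leaf 0)) (.cut 1 (.cut 0 (.cut 1 (.leaf 7) (.leaf 0)) (.cut 1 (.leaf 8) (.leaf 0))) (.leaf 0)))) (.cut 1 (.leaf 3) (.cut 0 (.cut 1 (.cut 0 (.cut 1 (.leaf 8) (.leaf 0)) (.leaf 8)) (.leaf 0)) (.leaf 8))))) (.cut 1 (.leaf 3) (.cut 0 (.cut 1 (.leaf 3) (.leaf 8)) (.cut 1 (.leaf 3) (.leaf 0)))))))) (.cut 1 (.leaf 3) (.cut 0 (.cut 1 (.leaf 3) (.cut 0 (.cut 1 (.leaf 3) (.leaf 9)) (.leaf 10))) (.cut 1 (.leaf 3) (.leaf 10)))))) (.cut 1 (.cut 0 (.leaf 3) (.cut 1 (.cut 0 (.leaf 3) (.cut 1 (.cut 0 (.leaf 0) (.cut 1 (.cut 0 (.leaf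 0) (.leaf 0)) (.cut 0 (.leaf 3) (.cut 1 (.cut 0 (.leaf 0) (.leaf 0)) (.cut 0 (.cut 1 (.leaf 0) (.cut 0 (.leaf 5) (.leaf 0))) (.leaf 0)))))) (.cut 0 (.leaf 3) (.cut 1 (.cut 0 (.leaf 3) (.cut 1 (.cut 0 (.cut 1 (.cut 0 (.cut 1 (.leaf 6) (.cut 0 (.leaf 3) (.cut 1 (.cut 0 (.leaf 3) (.cut 1 (.cut 0 (.leaf 3) (.leaf 6)) (.cut 0 (.leaf 3) (.leaf 6)))) (.leaf 7)))) (.leaf 0)) (.cut 0 (.leaf 8) (.leaf 0))) (.leaf 0)) (.cut 0 (.cut 1 (.cut 0 (.leaf 8) (.leaf 0)) (.leaf 8)) (.leaf 0)))) (.cut 0 (.leaf 3) (.leaf 8)))))) (.cut 0 (.leaf 3) (.cut 1 (.cut 0 (.leaf 3) (.leaf 9)) (.leaf 10))))) (.cut 0 (.cut 1 (.leaf 3) (.cut 0 (.cut 1 (.leaf 3) (.leaf 0)) (.leaf 10))) (.cut 1 (.cut 0 (.cut 1 (.leaf 3) (.leaf 10)) (.leaf 0)) (.leaf 0))))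

theorem check17 : checkAlt 2 (mulAlts (xKnum 17) 16000000 30000 26400 28500 mus17) tree17 pairBox = true := by
  decide +kernel

/-- Multipliers of interval 18. -/
def mus18 : List (Fin 3 × ℕ) := [(2, 33), (2, 66), (2, 133), (2, 266), (2, 533), (2, 1066), (2, 2133)]

/-- A subtree of interval 18. -/
def tree18L : ACut :=
  .cut 1 (.cut 0 (.cut 1 (.cut 0 (.cut 1 (.leaf 0) (.cut 0 (.leaf 0) (.leaf 3))) (.cut 1 (.cut 0 (.leaf 5) (.leaf 3)) (.leaf 3))) (.leaf 3)) (.leaf 3)) (.cut 0 (.cut 1 (.leaf 3) (.cut 0 (.cut 1 (.leaf 0) (.cut 0 (.cut 1 (.leaf 0) (.cut 0 (.cut 1 (.leaf 0) (.cut 0 (.leaf 0) (.cut 1 (.leaf 0) (.leaf 0)))) (.cut 1 (.leaf 0) (.cut 0 (.cut 1 (.leaf 0) (.leaf 0)) (.cut 1 (.leaf 0) (.leaf 0)))))) (.cut 1 (.leaf 3) (.cut 0 (.cut 1 (.leaf 0) (.cut 0 (.cut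 1 (.leaf 0) (.cut 0 (.leaf 0) (.leaf 5))) (.cut 1 (.leaf 3) (.cut 0 (.cut 1 (.leaf 6) (.leaf 0)) (.cut 1 (.cut 0 (.cut 1 (.leaf 3) (.cut 0 (.leaf 6) (.cut 1 (.leaf 3) (.leaf 6)))) (.cut 1 (.leaf 3) (.cut 0 (.cut 1 (.leaf 3) (.leaf 6)) (.cut 1 (.leaf 3) (.leaf 6))))) (.leaf 0)))))) (.cut 1 (.leaf 3) (.cut 0 (.cut 1 (.leaf 3) (.cut 0 (.cut 1 (.cut 0 (.cut 1 (.leaf 3) (.cut 0 (.cut 1 (.leaf 3) (.cut 0 (.cut 1 (.cut 0 (.cut 1 (.leaf 7) (.leaf 0)) (.cut 1 (.leaf 7) (.leaf 0))) (.leaf 0)) (.cut 1 (.cut 0 (.cut 1 (.leaf 7) (.leaf 0)) (.cut 1 (.leaf 7) (.leaf 0))) (.leaf 0)))) (.cut 1 (.leaf 3) (.cut 0 (.cut 1 (.cut 0 (.cut 1 (.leaf 7) (.leaf 0)) (.leaf 7)) (.leaf 0)) (.leaf 7))))) (.leaf 7)) (.leaf 0)) (.cut 1 (.cut 0 (.cut 1 (.leaf 3) (.cut 0 (.cut 1 (.leaf 3) (.leaf 6))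 (.cut 1 (.leaf 3) (.leaf 6)))) (.cut 1 (.leaf 3) (.cut 0 (.cut 1 (.leaf 3) (.leaf 4)) (.cut 1 (.leaf 3) (.leaf 0))))) (.leaf 0)))) (.cut 1 (.leaf 3) (.cut 0 (.cut 1 (.cut 0 (.cut 1 (.leaf 3) (.cut 0 (.cut 1 (.leaf 3) (.leaf 0)) (.cut 1 (.leaf 3) (.leaf 0)))) (.cut 1 (.leaf 3) (.cut 0 (.cut 1 (.leaf 3) (.leaf 0)) (.leaf 8)))) (.leaf 0)) (.leaf 8))))))))) (.cut 1 (.leaf 3) (.cut 0 (.cut 1 (.leaf 3) (.cut 0 (.cut 1 (.leaf 3) (.cut 0 (.cut 1 (.leaf 3) (.cut 0 (.leaf 8) (.cut 1 (.cut 0 (.cut 1 (.leaf 3) (.leaf 8)) (.leaf 9)) (.leaf 0)))) (.cut 1 (.leaf 3) (.cut 0 (.cut 1 (.leaf 9) (.leaf 0)) (.leaf 9))))) (.cut 1 (.leaf 3) (.cut 0 (.leaf 9) (.cut 1 (.leaf 3) (.leaf 9)))))) (.cut 1 (.leaf 3) (.cut 0 (.leaf 10) (.cut 1 (.leaf 3) (.leaf 10)))))))) (.cut 1 (.leaf 3) (.cut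 0 (.cut 1 (.leaf 3) (.cut 0 (.cut 1 (.leaf 3) (.cut 0 (.cut 1 (.leaf 3) (.leaf 1)) (.cut 1 (.leaf 3) (.leaf 1)))) (.cut 1 (.leaf 3) (.cut 0 (.cut 1 (.leaf 3) (.leaf 0)) (.cut 1 (.leaf 3) (.leaf 0)))))) (.cut 1 (.leaf 3) (.cut 0 (.cut 1 (.leaf 3) (.leaf 1)) (.cut 1 (.leaf 3) (.leaf 0)))))))

theorem check18L : checkAlt 2 (mulAlts (xKnum 18) 16000000 30000 28500 30000 mus18) tree18L (halve Iv.low 0 pairBox) = true := by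
  decide +kernel

/-- A subtree of interval 18. -/
def tree18H : ACut :=
  .cut 1 (.cut 0 (.leaf 3) (.cut 1 (.cut 0 (.leaf 3) (.cut 1 (.cut 0 (.leaf 3) (.cut 1 (.cut 0 (.leaf 0) (.cut 1 (.cut 0 (.leaf 0) (.leaf 0)) (.cut 0 (.leaf 0) (.leaf 0)))) (.cut 0 (.leaf 3) (.cut 1 (.cut 0 (.leaf 3) (.cut 1 (.cut 0 (.leaf 4) (.leaf 0)) (.cut 0 (.cut 1 (.leaf 6) (.cut 0 (.leaf 3) (.cut 1 (.cut 0 (.leaf 3) (.leaf 6)) (.cut 0 (.leaf 3) (.leaf 6))))) (.leaf 0)))) (.cut 0 (.leaf 3) (.cut 1 (.cut 0 (.cut 1 (.cut 0 (.leaf 3) (.cut 1 (.cut 0 (.leaf 3) (.cut 1 (.cut 0 (.cut 1 (.cut 0 (.leaf 7) (.leaf 0)) (.cut 0 (.leaf 7) (.leaf 0))) (.leaf 0)) (.cut 0 (.cut 1 (.cut 0 (.leaf 7) (.leaf 0)) (.leaf 7)) (.leaf 0)))) (.leaf 7))) (.cut 0 (.leaf 3) (.cut 1 (.cut 0 (.leaf 3) (.leaf 6)) (.cut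 0 (.leaf 3) (.leaf 4))))) (.leaf 0)) (.cut 0 (.cut 1 (.cut 0 (.leaf 3) (.cut 1 (.cut 0 (.leaf 3) (.leaf 0)) (.cut 0 (.leaf 3) (.leaf 0)))) (.leaf 8)) (.leaf 0)))))))) (.cut 0 (.leaf 3) (.cut 1 (.cut 0 (.leaf 3) (.cut 1 (.cut 0 (.leaf 3) (.cut 1 (.cut 0 (.cut 1 (.leaf 8) (.cut 0 (.leaf 3) (.leaf 8))) (.leaf 0)) (.cut 0 (.leaf 9) (.leaf 0)))) (.cut 0 (.leaf 3) (.leaf 9)))) (.cut 0 (.leaf 3) (.leaf 10)))))) (.cut 0 (.leaf 3) (.cut 1 (.cut 0 (.leaf 3) (.cut 1 (.cut 0 (.leaf 3) (.leaf 1)) (.cut 0 (.leaf 3) (.leaf 0)))) (.cut 0 (.leaf 3) (.leaf 1)))))) (.cut 0 (.cut 1 (.leaf 3) (.cut 0 (.cut 1 (.leaf 3) (.leaf 1)) (.cut 1 (.cut 0 (.leaf 3) (.leaf 1)) (.leaf 0)))) (.cut 1 (.cut 0 (.cut 1 (.leaf 3) (.cut 0 (.leaf 3) (.leaf 1))) (.leaf 1)) (.leaf 0)))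

theorem check18H : checkAlt 2 (mulAlts (xKnum 18) 16000000 30000 28500 30000 mus18) tree18H (halve Iv.high 0 pairBox) = true := by
  decide +kernel

/-- A subtree of interval 18. -/
def tree18 : ACut :=
  .cut 0 tree18L tree18H

theorem check18 : checkAlt 2 (mulAlts (xKnum 18) 16000000 30000 28500 30000 mus18) tree18 pairBox = true := by
  simp only [tree18, checkAlt, check18L, check18H, Bool.and_self]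

end Vale.Agent.P154.Ferro4.Maj
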