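import Vale.Agent.P154.Ferro4.Majorant
import Vale.Agent.P154.Ferro4.XData

/-!
P154, four states: kernel certificates of the pair inequalities of intervals 0, 1, 2, 3, 4.
Large trees are checked subtree by subtree.
-/

namespace Vale.Agent.P154.Ferro4.Maj

open PolyCheck

/-- A subtree of interval 0. -/
def tree0 : ACut :=
  .cut 0 (.cut 1 (.cut 0 (.leaf 0) (.cut 1 (.cut 0 (.leaf 0) (.leaf 0)) (.cut 0 (.leaf 0) (.leaf 0)))) (.leaf 0)) (.cut 1 (.leaf 0) (.cut 0 (.cut 1 (.cut 0 (.cut 1 (.leaf 0) (.cut 0 (.cut 1 (.leaf 0) (.cut 0 (.cut 1 (.leaf 0) (.cut 0 (.leaf 0) (.leaf 1))) (.leaf 1))) (.leaf 1))) (.leaf 0)) (.cut 0 (.cut 1 (.cut 0 (.cut 1 (.cut 0 (.cut 1 (.cut 0 (.leaf 0) (.leaf 1)) (.cut 0 (.leaf 0) (.leaf 1))) (.leaf 1)) (.cut 0 (.cut 1 (.cut 0 (.leaf 0) (.leaf 1)) (.cut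 0 (.leaf 0) (.leaf 1))) (.leaf 1))) (.leaf 1)) (.cut 0 (.cut 1 (.cut 0 (.cut 1 (.cut 0 (.cut 1 (.leaf 0) (.cut 0 (.leaf 0) (.cut 1 (.cut 0 (.leaf 0) (.cut 1 (.leaf 0) (.leaf 1))) (.cut 0 (.leaf 0) (.leaf 1))))) (.leaf 1)) (.cut 0 (.cut 1 (.cut 0 (.leaf 0) (.cut 1 (.cut 0 (.leaf 0) (.leaf 1)) (.cut 0 (.leaf 0) (.leaf 1)))) (.cut 0 (.leaf 0) (.cut 1 (.cut 0 (.leaf 0) (.leaf 1)) (.cut 0 (.leaf 0) (.leaf 1))))) (.leaf 1))) (.leaf 1)) (.cut 0 (.cut 1 (.cut 0 (.cut 1 (.cut 0 (.leaf 0) (.cut 1 (.cut 0 (.leaf 0) (.leaf 1)) (.cut 0 (.leaf 0) (.leaf 1)))) (.cut 0 (.leaf 0) (.cut 1 (.cut 0 (.leaf 0) (.leaf 1)) (.cut 0 (.leaf 0) (.leaf 1))))) (.leaf 1)) (.cut 0 (.cut 1 (.cut 0 (.leaf 0) (.cut 1 (.cut 0 (.leaf 0) (.leaf 1)) (.cut 0 (.leaf 0) (.leaf 1)))) (.cut 0 (.leaf 0) (.cut 1 (.cut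 0 (.leaf 0) (.leaf 1)) (.cut 0 (.leaf 0) (.leaf 1))))) (.leaf 1))) (.leaf 1))) (.leaf 1))) (.leaf 1))) (.leaf 1)))

theorem check0 : checkAlt 2 (zeroAlts (xKnum 0) 16000000 30000 18) tree0 zeroBox = true := by
  decide +kernel

/-- A subtree of interval 1. -/
def tree1 : ACut :=
  .cut 0 (.cut 1 (.cut 0 (.leaf 0) (.cut 1 (.cut 0 (.leaf 0) (.leaf 0)) (.cut 0 (.leaf 0) (.cut 1 (.cut 0 (.leaf 0) (.leaf 0)) (.cut 0 (.leaf 0) (.leaf 0)))))) (.cut 0 (.leaf 0) (.cut 1 (.cut 0 (.leaf 0) (.cut 1 (.cut 0 (.leaf 0) (.leaf 0)) (.leaf 0))) (.leaf 0)))) (.cut 1 (.leaf 0) (.cut 0 (.cut 1 (.leaf 0) (.cut 0 (.cut 1 (.leaf 0) (.cut 0 (.cut 1 (.leaf 0) (.cut 0 (.leaf 0) (.leaf 1))) (.leaf 1))) (.leaf 1))) (.leaf 1)))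

theorem check1 : checkAlt 2 (zeroAlts (xKnum 1) 16000000 30000 75) tree1 zeroBox = true := by
  decide +kernel

/-- A subtree of interval 2. -/
def tree2 : ACut :=
  .cut 0 (.cut 1 (.leaf 0) (.leaf 0)) (.cut 1 (.cut 0 (.cut 1 (.cut 0 (.cut 1 (.leaf 0) (.leaf 0)) (.leaf 0)) (.cut 0 (.cut 1 (.cut 0 (.leaf 0) (.cut 1 (.leaf 0) (.cut 0 (.leaf 0) (.leaf 0)))) (.cut 0 (.leaf 0) (.cut 1 (.cut 0 (.cut 1 (.cut 0 (.leaf 0) (.leaf 1)) (.leaf 1)) (.leaf 1)) (.leaf 1)))) (.leaf 1))) (.leaf 0)) (.cut 0 (.cut 1 (.cut 0 (.cut 1 (.cut 0 (.leaf 0) (.leaf 1)) (.cut 0 (.cut 1 (.cut 0 (.leaf 0) (.cut 1 (.cut 0 (.leaf 0) (.cut 1 (.leaf 0) (.cut 0 (.leaf 0) (.leaf 1)))) (.cut 0 (.leaf 0) (.cut 1 (.cut 0 (.leaf 0) (.leaf 1)) (.cut 0 (.leaf 0) (.leaf 1)))))) (.cut 0 (.leaf 0) (.cut 1 (.cut 0 (.leaf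 0) (.cut 1 (.cut 0 (.leaf 0) (.leaf 1)) (.cut 0 (.leaf 0) (.leaf 1)))) (.cut 0 (.leaf 0) (.cut 1 (.cut 0 (.leaf 0) (.leaf 1)) (.cut 0 (.leaf 0) (.leaf 1))))))) (.leaf 1))) (.leaf 1)) (.cut 0 (.cut 1 (.cut 0 (.cut 1 (.cut 0 (.leaf 0) (.cut 1 (.cut 0 (.leaf 0) (.cut 1 (.cut 0 (.leaf 0) (.leaf 1)) (.cut 0 (.leaf 0) (.leaf 1)))) (.cut 0 (.leaf 0) (.leaf 1)))) (.cut 0 (.leaf 0) (.cut 1 (.cut 0 (.leaf 0) (.leaf 1)) (.cut 0 (.leaf 0) (.leaf 1))))) (.leaf 1)) (.cut 0 (.leaf 0) (.leaf 1))) (.leaf 1))) (.leaf 1)))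

theorem check2 : checkAlt 2 (zeroAlts (xKnum 2) 16000000 30000 240) tree2 zeroBox = true := by
  decide +kernel

/-- A subtree of interval 3. -/
def tree3 : ACut :=
  .cut 0 (.cut 1 (.leaf 0) (.leaf 0)) (.cut 1 (.cut 0 (.cut 1 (.cut 0 (.cut 1 (.leaf 0) (.leaf 0)) (.leaf 0)) (.cut 0 (.cut 1 (.leaf 0) (.cut 0 (.leaf 0) (.cut 1 (.leaf 0) (.cut 0 (.leaf 0) (.leaf 1))))) (.leaf 1))) (.leaf 0)) (.cut 0 (.cut 1 (.cut 0 (.cut 1 (.cut 0 (.leaf 0) (.cut 1 (.cut 0 (.leaf 0) (.leaf 1)) (.cut 0 (.cut 1 (.cut 0 (.leaf 0) (.cut 1 (.cut 0 (.leaf 0) (.leaf 1)) (.cut 0 (.leaf 0) (.leaf 1)))) (.cut 0 (.leaf 0) (.leaf 1))) (.leaf 1)))) (.cut 0 (.leaf 0) (.cut 1 (.cut 0 (.cut 1 (.cut 0 (.leaf 0) (.leaf 1)) (.cut 0 (.leaf 0) (.leaf 1))) (.leaf 1)) (.cut 0 (.cut 1 (.cut 0 (.cut 1 (.leaf 0) (.cut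 0 (.leaf 0) (.leaf 1))) (.leaf 1)) (.cut 0 (.cut 1 (.cut 0 (.leaf 0) (.leaf 1)) (.cut 0 (.leaf 0) (.leaf 1))) (.leaf 1))) (.leaf 1))))) (.leaf 1)) (.cut 0 (.cut 1 (.cut 0 (.leaf 0) (.cut 1 (.cut 0 (.cut 1 (.cut 0 (.cut 1 (.cut 0 (.leaf 0) (.leaf 1)) (.cut 0 (.leaf 0) (.leaf 1))) (.leaf 1)) (.cut 0 (.cut 1 (.cut 0 (.leaf 0) (.leaf 1)) (.cut 0 (.leaf 0) (.leaf 1))) (.leaf 1))) (.leaf 1)) (.cut 0 (.cut 1 (.cut 0 (.cut 1 (.cut 0 (.leaf 0) (.leaf 1)) (.leaf 1)) (.leaf 1)) (.leaf 1)) (.leaf 1)))) (.cut 0 (.leaf 0) (.leaf 1))) (.leaf 1))) (.leaf 1)))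

theorem check3 : checkAlt 2 (zeroAlts (xKnum 3) 16000000 30000 480) tree3 zeroBox = true := by
  decide +kernel

/-- A subtree of interval 4. -/
def tree4 : ACut :=
  .cut 0 (.cut 1 (.leaf 0) (.leaf 0)) (.cut 1 (.cut 0 (.cut 1 (.cut 0 (.cut 1 (.leaf 0) (.cut 0 (.leaf 0) (.leaf 0))) (.leaf 0)) (.cut 0 (.cut 1 (.cut 0 (.leaf 0) (.leaf 0)) (.leaf 0)) (.leaf 0))) (.leaf 0)) (.cut 0 (.leaf 0) (.leaf 0)))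

theorem check4 : checkAlt 2 (zeroAlts (xKnum 4) 16000000 30000 900) tree4 zeroBox = true := by
  decide +kernel

end Vale.Agent.P154.Ferro4.Maj
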